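import Vale.Agent.P042PH.AnW
import Vale.Agent.P042PU.Exp
import Vale.Agent.P042P.Frame
import Vale.Agent.P042.H245.ANU

set_option autoImplicit false
set_option linter.all false

/-!
P042, prime arguments: the circle method with sieve weights for one pair of windows.
-/

namespace Vale.Agent.P042PA

open Polynomial Finset Vale.Agent.P042 Vale.Agent.P042.SS Vale.Agent.P042PU
open Vale.Agent.P042.H74 (ZS)
open Vale.Agent.P042.H245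

/-- circle method over primes with sieve weights -/
theorem anW_P (hA : AnPStmt) (k : ℕ) (hk : 2 ≤ k) : ∃ (E : ℕ) (K : ℝ), 1 ≤ E ∧ 1 ≤ K ∧
    ∀ (F : P042P.PL) (PP : Finset ℕ) (N' H Q E0 : ℕ) (δ B : ℝ) (G : ℤ → ℝ),
    F.natDegree = k → 0 < F.leadingCoeff → 0 < δ → δ ≤ 1 → 1 ≤ B →
    (∀ j : ℕ, |(F.coeff j : ℝ)| ≤ B) → IsCoprime F.u F.v → 1 ≤ F.v → |(F.u : ℝ)| ≤ B →
    (F.v : ℝ) ≤ B → Real.log N' ≤ B → (∀ p ∈ PP, p.Prime) → 1 ≤ E0 → 8 * H ≤ N' → N' ≤ 16 * H →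
    (K * B * (E0 : ℝ) ^ (2 * k + 1) / δ) ^ E ≤ (Q : ℝ) →
    (K * B * (E0 : ℝ) ^ (2 * k + 1) * Q / δ) ^ E ≤ (N' : ℝ) → (Q : ℝ) ^ 4 ≤ H →
    (∀ n, G n ≠ 0 → 1 ≤ n ∧ n ≤ N') →
    (∀ n m : ℤ, G n ≠ 0 → G m ≠ 0 → ∀ x : ℕ, 1 ≤ x → P042P.pr F x →
      n - m = F.eval (x : ℤ) → n = m) →
    ‖∑ q ∈ Icc 1 Q, ∑ a ∈ (range q).filter (Nat.Coprime q),
      P042P.GamW F PP a q * Bil G N' H ((a : ℝ) / q)‖ ≤
      (E0 * δ + 2 * ∑ S ∈ PP.powerset.filter (fun S => E0 < ∏ p ∈ S, p),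
        ((ZS F.toPolynomial S).card : ℝ) / ((∏ p ∈ S, p : ℕ) : ℝ)) *
        ((H : ℝ) ^ 2 * ∑ n ∈ Icc (1 : ℤ) N', G n ^ 2) := by
  obtain ⟨E, K, hE, hK, hAN⟩ := P042PH.anW_abs hA k hk
  refine ⟨E, K, hE, hK, ?_⟩
  intro F PP N' H Q E0 δ B G hdeg hlead hδ hδ1 hB hcoef hcop hv hu hvB hlog hPP hE0 h8 h16 hQ hN
    hQH hGs hfree
  obtain ⟨v, hFv⟩ := Int.eq_ofNat_of_zero_le (show 0 ≤ F.v by omega)
  have hv1 : 1 ≤ v := by omega
  have hg : Int.gcd F.u v = 1 := by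
    rw [← hFv]
    exact Int.isCoprime_iff_gcd_eq_one.1 hcop
  have hvB' : (v : ℝ) ≤ B := by
    have : (F.v : ℝ) = v := by rw [hFv]; simp
    linarith
  refine hAN F.toPolynomial F.u v PP (fun a q => P042P.GamW F PP a q)
    (fun S r => if r ∈ ZSP F.toPolynomial F.u v S then (-1 : ℝ) ^ S.card * cf v PP S else 0)
    N' H Q E0 δ B G hdeg hlead hδ hδ1 hB hcoef hu hv1 hvB' hlog hPP hE0 h8 h16 hQ hN hQH hGs
    (fun n m hn hm x hx hp => hfree n m hn hm x hx ((prL_iff F hFv x).1 hp)) ?_ ?_ ?_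
  · intro S hS r _
    split_ifs
    · rw [abs_mul, abs_pow, abs_neg, abs_one, one_pow, one_mul, abs_of_nonneg (cf_nonneg _ _ _)]
      exact cf_le hPP (mem_powerset.1 hS) hv1
    · rw [abs_zero]
      positivity
  · intro S hS r _ h0
    split_ifs at h0 with h1
    · exact ZSP_gcd hg h1
    · exact absurd rfl h0
  · intro q hq a
    rw [GamW_expandP F hFv hv1 hg hPP a hq]
    refine sum_congr rfl fun S _ => ?_
    rw [← sum_subset (ZSP_sub F.toPolynomial F.u v S)]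
    · refine sum_congr rfl fun r hr => ?_
      rw [if_pos hr]
    · intro r _ hr
      rw [if_neg hr]
      simp

/-- one pair of windows and signed functions -/
theorem anW_pairP (hA : AnPStmt) (k : ℕ) (hk : 2 ≤ k) : ∃ (E : ℕ) (K : ℝ), 1 ≤ E ∧ 1 ≤ K ∧
    ∀ (F : P042P.PL) (PP : Finset ℕ) (N' H h Q E0 : ℕ) (δ B : ℝ) (z : ℤ) (s : ℤ → Prop)
    (g1 g2 : ℤ → ℝ),
    F.natDegree = k → 0 < F.leadingCoeff → 0 < δ → δ ≤ 1 → 1 ≤ B →
    (∀ j : ℕ, |(F.coeff j : ℝ)| ≤ B) → IsCoprime F.u F.v → 1 ≤ F.v → |(F.u : ℝ)| ≤ B →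
    (F.v : ℝ) ≤ B → Real.log N' ≤ B → (∀ p ∈ PP, p.Prime) →
    1 ≤ E0 → 1 ≤ H → 2 * h ≤ H → 8 * (H + h) ≤ N' → N' ≤ 16 * H →
    (K * B * (E0 : ℝ) ^ (2 * k + 1) / δ) ^ E ≤ (Q : ℝ) →
    (K * B * (E0 : ℝ) ^ (2 * k + 1) * Q / δ) ^ E ≤ (N' : ℝ) → (Q : ℝ) ^ 4 ≤ H →
    0 ≤ z → z + 3 * H + 2 * h ≤ N' →
    (∀ n m : ℤ, s n → s m → ∀ x : ℕ, 1 ≤ x → P042P.pr F x → n - m = F.eval (x : ℤ) → n = m) →
    (∀ n, g1 n ≠ 0 → s n) → (∀ n, g2 n ≠ 0 → s n) →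
    ‖∑ q ∈ Icc 1 Q, ∑ a ∈ (range q).filter (Nat.Coprime q),
      P042P.GamW F PP a q * (Fw g1 (z + 3 * H + h) h ((a : ℝ) / q) *
        (starRingEnd ℂ) (Fw g2 z h ((a : ℝ) / q)))‖ ≤
      (E0 * δ + 2 * ∑ S ∈ PP.powerset.filter (fun S => E0 < ∏ p ∈ S, p),
        ((ZS F.toPolynomial S).card : ℝ) / ((∏ p ∈ S, p : ℕ) : ℝ)) * (48 * H *
        (Real.sqrt (∑ n ∈ Ioc (z + 3 * H + h) (z + 3 * H + h + h), g1 n ^ 2) *
          Real.sqrt (∑ m ∈ Ioc z (z + h), g2 m ^ 2))) := by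
  obtain ⟨E, K, hE, hK, hAN⟩ := anW_P hA k hk
  refine ⟨E, K, hE, hK, ?_⟩
  intro F PP N' H h Q E0 δ B z s g1 g2 hdeg hlead hδ hδ1 hB hcoef hcop hv hu hvB hlog hPP hE0 hH hh
    h8 h16 hQ hN hQH hz hzN hfree hs1 hs2
  obtain ⟨X, hX⟩ : ∃ X : ℝ, X = E0 * δ + 2 * ∑ S ∈ PP.powerset.filter (fun S => E0 < ∏ p ∈ S, p),
        ((ZS F.toPolynomial S).card : ℝ) / ((∏ p ∈ S, p : ℕ) : ℝ) := ⟨_, rfl⟩
  rw [← hX]
  have hX0 : 0 ≤ X := by
    rw [hX]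
    exact add_nonneg (mul_nonneg (Nat.cast_nonneg _) hδ.le) (mul_nonneg (by norm_num)
      (Finset.sum_nonneg fun _ _ => div_nonneg (Nat.cast_nonneg _) (Nat.cast_nonneg _)))
  have hHr : (1 : ℝ) ≤ H := by exact_mod_cast hH
  have hhr : 2 * (h : ℝ) ≤ H := by exact_mod_cast hh
  have hh0 : (0 : ℝ) ≤ h := by positivity
  have hsq : ((H + h : ℕ) : ℝ) ^ 2 ≤ 3 * (H : ℝ) ^ 2 := by
    push_cast
    nlinarith only [hHr, hhr, hh0]
  have hb : 0 ≤ X * (3 * (H : ℝ) ^ 2) := by positivity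
  have h1 : ∀ G : ℤ → ℝ, (∀ n, 0 ≤ G n) → (∀ n, G n ≠ 0 → 1 ≤ n ∧ n ≤ (N' : ℤ)) →
      (∀ n, G n ≠ 0 → s n) →
      ‖∑ q ∈ Icc 1 Q, ∑ a ∈ (range q).filter (Nat.Coprime q),
        P042P.GamW F PP a q * Bil G N' H ((a : ℝ) / q)‖ ≤
        X * (3 * (H : ℝ) ^ 2) * ∑ n ∈ Icc (1 : ℤ) N', G n ^ 2 := by
    intro G hG0 hGs hGf
    refine (hAN F PP N' H Q E0 δ B G hdeg hlead hδ hδ1 hB hcoef hcop hv hu hvB hlog hPP hE0
      (by omega) h16 hQ hN hQH hGs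
      (fun n m hn hm x hx hp hnm => hfree n m (hGf n hn) (hGf m hm) x hx hp hnm)).trans ?_
    rw [← hX]
    have h3 : 0 ≤ ∑ n ∈ Icc (1 : ℤ) N', G n ^ 2 := Finset.sum_nonneg fun _ _ => sq_nonneg _
    have h4 : 0 ≤ X * ((H : ℝ) ^ 2 * ∑ n ∈ Icc (1 : ℤ) N', G n ^ 2) := by positivity
    nlinarith only [h4]
  have h2 : ∀ G : ℤ → ℝ, (∀ n, 0 ≤ G n) → (∀ n, G n ≠ 0 → 1 ≤ n ∧ n ≤ (N' : ℤ)) →
      (∀ n, G n ≠ 0 → s n) →
      ‖∑ q ∈ Icc 1 Q, ∑ a ∈ (range q).filter (Nat.Coprime q),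
        P042P.GamW F PP a q * Bil G N' (H + h) ((a : ℝ) / q)‖ ≤
        X * (3 * (H : ℝ) ^ 2) * ∑ n ∈ Icc (1 : ℤ) N', G n ^ 2 := by
    intro G hG0 hGs hGf
    refine (hAN F PP N' (H + h) Q E0 δ B G hdeg hlead hδ hδ1 hB hcoef hcop hv hu hvB hlog hPP hE0
      h8 (by omega) hQ hN (hQH.trans (by push_cast; linarith)) hGs
      (fun n m hn hm x hx hp hnm => hfree n m (hGf n hn) (hGf m hm) x hx hp hnm)).trans ?_
    rw [← hX]
    have h3 : 0 ≤ ∑ n ∈ Icc (1 : ℤ) N', G n ^ 2 := Finset.sum_nonneg fun _ _ => sq_nonneg _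
    have h4 : 0 ≤ X * ∑ n ∈ Icc (1 : ℤ) N', G n ^ 2 := by positivity
    have h5 := mul_le_mul_of_nonneg_left hsq h4
    nlinarith only [h5]
  have key := pair_of_bil2 hz hzN (by omega) hh hH (Icc 1 Q) (fun a q => P042P.GamW F PP a q)
    (X * (3 * (H : ℝ) ^ 2)) hb s h1 h2 g1 g2 hs1 hs2
  have hH0 : (0 : ℝ) < H := by linarith
  apply le_of_mul_le_mul_left _ hH0
  refine key.trans (le_of_eq ?_)
  ring

/-- **block AN from the circle method over primes** -/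
theorem anp_of (hA : AnPStmt) : P042P.ANP := by
  intro C1 hC1 k hk
  obtain ⟨E, C, hE, hC, hAN⟩ := anW_pairP hA k hk
  have hEr : (1 : ℝ) ≤ E := by exact_mod_cast hE
  refine ⟨1 / (20 * E), by positivity, ?_⟩
  intro thQ hth0 hth1
  obtain ⟨c', κ1, P0, hc', hκ0, hκh, hκth, hP01, hnum⟩ := anu_num (2 * k + 1) E C C1 thQ hE
    hC hC1 hth0 hth1
  refine ⟨c' / 2, κ1, by positivity, hκ0, max (max P0 (4 / c')) (4 / κ1 ^ 2), ?_⟩
  intro P hPm R f N' H h0 z G1 G2 hR hRP hdeg hlead hcont hcoef hcop hv hu hvB hN'lo hN'hi h8 h16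
    hh0 hh hz hzN hs1 hs2 hfree
  have hP : P0 ≤ P := ((le_max_left _ _).trans (le_max_left _ _)).trans hPm
  have hP4 : 4 / c' ≤ P := ((le_max_right _ _).trans (le_max_left _ _)).trans hPm
  have hP5 : 4 / κ1 ^ 2 ≤ P := (le_max_right _ _).trans hPm
  have hPpos : 0 < P := by linarith
  have hB1 : (1 : ℝ) ≤ Real.exp (κ1 * P) := Real.one_le_exp (by positivity)
  obtain ⟨E0, δ, hE0, hδ, hδ1, n1, n2, n3, n4⟩ := hnum P (Real.exp (κ1 * P)) hP hB1 le_rfl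
  have ht0 : (0 : ℝ) < 1 / (2 * C1) := by positivity
  have ht1 : (1 : ℝ) / (2 * C1) ≤ 1 := by
    rw [div_le_one (by positivity)]
    linarith
  have hB2 : (1 : ℝ) ≤ Real.exp (thQ * P) := Real.one_le_exp (by positivity)
  have hN' : Real.exp (P / 2) ≤ N' := by
    refine le_trans (Real.exp_le_exp.2 ?_) hN'lo
    nlinarith
  have hlog : Real.log N' ≤ Real.exp (κ1 * P) := by
    have h1 : Real.log N' ≤ P := by
      have h2 : (0 : ℝ) < N' := (Real.exp_pos _).trans_le hN'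
      exact (Real.log_le_iff_le_exp h2).2 hN'hi
    have h3 : κ1 * P / 2 ≤ Real.exp (κ1 * P / 2) := by
      have := Real.add_one_le_exp (κ1 * P / 2)
      linarith
    have h4 : (κ1 * P / 2) * (κ1 * P / 2) ≤ Real.exp (κ1 * P / 2) * Real.exp (κ1 * P / 2) :=
      mul_le_mul h3 h3 (by positivity) (Real.exp_pos _).le
    rw [← Real.exp_add, add_halves] at h4
    rw [div_le_iff₀ (by positivity)] at hP5
    have h5 : 4 * P ≤ P * κ1 ^ 2 * P := mul_le_mul_of_nonneg_right hP5 hPpos.le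
    nlinarith only [h1, h4, h5]
  have hPP : ∀ p ∈ PPf C1 f.toPolynomial P, p.Prime ∧ k < p ∧
      (∃ j : ℕ, 1 ≤ j ∧ ¬ (p : ℤ) ∣ f.coeff j) ∧ (p : ℝ) ≤ P ^ C1 := by
    intro p hp
    have h1 := mem_PPf.1 hp
    exact ⟨h1.1, hdeg ▸ h1.2.1, h1.2.2.1, le_of_mem_PPf hPpos.le hp⟩
  have h16r : (N' : ℝ) ≤ 16 * H := by exact_mod_cast h16
  have hH1 : 1 ≤ H := by omega
  have hE0r : (1 : ℝ) ≤ E0 := by exact_mod_cast hE0
  obtain ⟨Q, hQ⟩ : ∃ Q : ℕ, Q = ⌊Real.exp (thQ * P)⌋₊ := ⟨_, rfl⟩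
  rw [← hQ] at n1 n2 n3 ⊢
  have n2' : (C * Real.exp (κ1 * P) * (E0 : ℝ) ^ (2 * k + 1) * Q / δ) ^ E ≤ (N' : ℝ) := by
    refine le_trans (pow_le_pow_left₀ (by positivity) ?_ _) (n2.trans hN')
    refine div_le_div_of_nonneg_right (mul_le_mul_of_nonneg_right ?_ (Nat.cast_nonneg _)) hδ.le
    have h1 : (E0 : ℝ) ^ (2 * k + 1) ≤ (E0 : ℝ) ^ (3 * (2 * k + 1)) :=
      pow_le_pow_right₀ hE0r (by omega)
    have h2 : C * Real.exp (κ1 * P) * (E0 : ℝ) ^ (2 * k + 1) ≤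
        C * Real.exp (κ1 * P) * (E0 : ℝ) ^ (3 * (2 * k + 1)) :=
      mul_le_mul_of_nonneg_left h1 (by positivity)
    exact h2.trans (le_mul_of_one_le_right (by positivity) hB2)
  have hmain := hAN f (PPf C1 f.toPolynomial P) N' H h0 Q E0 δ (Real.exp (κ1 * P)) z
    (fun n => G1 n ≠ 0 ∨ G2 n ≠ 0) G1 G2 hdeg hlead hδ hδ1
    hB1 hcoef hcop hv hu hvB hlog (fun p hp => (hPP p hp).1) hE0 hH1 hh h8 h16 n1 n2' (by
      refine n3.trans ?_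
      rw [div_le_iff₀ (by norm_num : (0:ℝ) < 16)]
      linarith) hz hzN hfree (fun n hn => Or.inl hn) (fun n hn => Or.inr hn)
  have e1 : ∀ θ : ℝ, H739.Fs G1 N' θ = Fw G1 (z + 3 * H + h0) h0 θ := fun θ =>
    Fs_eq_Fw G1 N' h0 (z + 3 * H + h0) (by positivity) (by linarith)
      (fun n hn => by have := hs1 n hn; constructor <;> linarith [this.1, this.2]) θ
  have e2 : ∀ θ : ℝ, H739.Fs G2 N' θ = Fw G2 z h0 θ := fun θ =>
    Fs_eq_Fw G2 N' h0 z hz (by omega) hs2 θ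
  have q1 := sq_eq G1 N' h0 (z + 3 * H + h0) (by positivity) (by linarith)
      (fun n hn => by have := hs1 n hn; constructor <;> linarith [this.1, this.2])
  have q2 := sq_eq G2 N' h0 z hz (by omega) hs2
  rw [q1, q2] at hmain
  simp only [P042P.GWf, e1, e2]
  refine hmain.trans ?_
  set A : ℝ := ∑ n ∈ Icc (1 : ℤ) N', G1 n ^ 2 with hA
  set B : ℝ := ∑ n ∈ Icc (1 : ℤ) N', G2 n ^ 2 with hB
  have hA0 : 0 ≤ A := Finset.sum_nonneg fun _ _ => sq_nonneg _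
  have hB0 : 0 ≤ B := Finset.sum_nonneg fun _ _ => sq_nonneg _
  have htail := tail_le f.toPolynomial k (by omega) hdeg (PPf C1 f.toPolynomial P) (P ^ C1)
    (1 / (2 * C1)) E0 hPP (by positivity) ht0 ht1 hE0
  have hmono : (E0 : ℝ) ^ (-(1 / (2 * C1))) *
      Real.exp (k * ((P ^ C1) ^ (1 / (2 * C1)) / (1 / (2 * C1)))) ≤ (E0 : ℝ) ^ (-(1 / (2 * C1))) *
      Real.exp (((2 * k + 1 : ℕ) : ℝ) * ((P ^ C1) ^ (1 / (2 * C1)) / (1 / (2 * C1)))) := by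
    refine mul_le_mul_of_nonneg_left (Real.exp_le_exp.2 ?_) (by positivity)
    refine mul_le_mul_of_nonneg_right ?_ (by positivity)
    exact_mod_cast (by omega : k ≤ 2 * k + 1)
  have hfac : (E0 : ℝ) * δ + 2 * ∑ S ∈ (PPf C1 f.toPolynomial P).powerset.filter
      (fun S => E0 < ∏ p ∈ S, p),
      ((ZS f.toPolynomial S).card : ℝ) / ((∏ p ∈ S, p : ℕ) : ℝ) ≤ Real.exp (-(c' * P)) := by
    refine le_trans ?_ n4
    linarith
  have h48 : 48 * (H : ℝ) * (Real.sqrt A * Real.sqrt B) ≤ 3 * N' * (A + B) := by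
    have h1 : 8 * (H : ℝ) ≤ N' := by
      have : 8 * H ≤ N' := by omega
      exact_mod_cast this
    have h2 := sqrt_mul_le A B hA0 hB0
    calc 48 * (H : ℝ) * (Real.sqrt A * Real.sqrt B) ≤ 48 * (H : ℝ) * ((A + B) / 2) := by gcongr
      _ = 3 * (8 * H) * (A + B) := by ring
      _ ≤ 3 * N' * (A + B) := by gcongr
  have h3 : 3 * Real.exp (-(c' * P)) ≤ Real.exp (-(c' / 2 * P)) := by
    have h4 : (3 : ℝ) ≤ Real.exp 2 := by
      have := Real.add_one_le_exp (2 : ℝ)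
      linarith
    calc 3 * Real.exp (-(c' * P)) ≤ Real.exp 2 * Real.exp (-(c' * P)) := by gcongr
      _ = Real.exp (2 + -(c' * P)) := by rw [← Real.exp_add]
      _ ≤ Real.exp (-(c' / 2 * P)) := by
          refine Real.exp_le_exp.2 ?_
          rw [div_le_iff₀ hc'] at hP4
          linarith
  calc _ ≤ Real.exp (-(c' * P)) * (48 * H * (Real.sqrt A * Real.sqrt B)) :=
        mul_le_mul_of_nonneg_right hfac (by positivity)
    _ ≤ Real.exp (-(c' * P)) * (3 * N' * (A + B)) :=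
        mul_le_mul_of_nonneg_left h48 (Real.exp_pos _).le
    _ = (3 * Real.exp (-(c' * P))) * N' * (A + B) := by ring
    _ ≤ Real.exp (-(c' / 2 * P)) * N' * (A + B) := by gcongr

end Vale.Agent.P042PA
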