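import Vale.Agent.P042.SS.ANHolds

set_option autoImplicit false
set_option linter.all false

/-!
P042, prime arguments: interface of the analytic block (circle method over the `x` with
`u + v x` prime).  Every `XStmt` is proved as `theorem x_holds : XStmt` in its own file.
-/

namespace Vale.Agent.P042PA

open Polynomial Finset Vale.Agent.P042 Vale.Agent.P042.SS

/-- `u + v x` is a (positive) prime -/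
def PrL (u : ℤ) (v : ℕ) (x : ℕ) : Prop := (u + v * x).toNat.Prime

instance (u : ℤ) (v : ℕ) : DecidablePred (PrL u v) := fun x => by unfold PrL; infer_instance

/-- the normalised prime weight -/
noncomputable def wP (u : ℤ) (v : ℕ) (x : ℕ) : ℝ :=
  if PrL u v x then (Nat.totient v : ℝ) / v * Real.log (((u + v * x : ℤ) : ℝ)) else 0

/-- the residues `x mod q` with `u + v x` prime to `q` -/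
def Un (u : ℤ) (v q : ℕ) : Finset ℕ := (range q).filter (fun x => Int.gcd (u + v * x) q = 1)

/-- mean of `e(a f(x)/q)` over the residues `x mod q` with `u + v x` prime to `q` -/
noncomputable def GamL (f : ℤ[X]) (u : ℤ) (v : ℕ) (a : ℤ) (q : ℕ) : ℂ :=
  (((Nat.totient v : ℝ) / (Nat.totient (v * q) : ℝ) : ℝ) : ℂ) *
    ∑ x ∈ Un u v q, e (a * ((f.eval (x : ℤ) : ℤ) : ℝ) / q)

/-- the weighted Weyl sum over primes -/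
noncomputable def SxP (f : ℤ[X]) (u : ℤ) (v H x0 X : ℕ) (θ : ℝ) : ℂ :=
  ∑ x ∈ Ico x0 X, ((gp f x * vt H (fv f x) * wP u v x : ℝ) : ℂ) * e (θ * (fv f x : ℝ))

/-- the main term with coefficients `c a q` -/
noncomputable def MnC (c : ℕ → ℕ → ℂ) (H Q : ℕ) (θ : ℝ) : ℂ :=
  ∑ q ∈ Icc 1 Q, ∑ a ∈ (range q).filter (Nat.Coprime q), c a q * Vk H (θ - (a : ℝ) / q)

/-- block UN: number of admissible residues -/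
def UnStmt : Prop :=
  ∀ (u : ℤ) (v q : ℕ), 1 ≤ v → 1 ≤ q → Int.gcd u v = 1 →
    (Un u v q).card * Nat.totient v = Nat.totient (v * q)

/-- block A1 (Vaughan identity, abstract form) -/
def VauStmt : Prop :=
  ∀ (φ : ℕ → ℂ) (N U : ℕ) (δ : ℝ), (∀ n, ‖φ n‖ ≤ 1) → 1 ≤ U → U ^ 2 ≤ N → 0 < δ → δ ≤ 1 →
    (∀ d t : ℕ, 1 ≤ d → d ≤ U ^ 2 → d * t ≤ N →
      ‖∑ m ∈ Icc 1 t, φ (d * m)‖ ≤ δ * N / d) →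
    (∀ n : ℕ, U < n → n * U ≤ N → ∃ Bd : Finset ℕ, (Bd.card : ℝ) ≤ δ * n ∧
      ∀ n' t : ℕ, 1 ≤ n' → n' ≤ n → n' ∉ Bd → n * t ≤ N →
        ‖∑ m ∈ Icc 1 t, φ (m * n) * (starRingEnd ℂ) (φ (m * n'))‖ ≤ δ * N / n) →
    ‖∑ n ∈ Icc 1 N, (ArithmeticFunction.vonMangoldt n : ℂ) * φ n‖ ≤
      10 * (1 + Real.log N) ^ 2 * (Real.sqrt δ * N + U)

/-- block A2 (polynomial recurrence with gain) -/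
def RecStmt : Prop :=
  ∀ k : ℕ, 1 ≤ k → ∃ E : ℕ, 1 ≤ E ∧ ∀ (γ β σ Q : ℝ) (K : ℕ) (S : Finset ℕ), 2 ≤ Q → 0 ≤ σ →
    σ * Q ^ E ≤ 1 → Q ^ E ≤ (K : ℝ) → S ⊆ Icc 1 K → (K : ℝ) ≤ Q * S.card →
    (∀ n ∈ S, nz (γ * (n : ℝ) ^ k - β) ≤ σ) →
    ∃ q : ℕ, 1 ≤ q ∧ (q : ℝ) ≤ Q ^ E ∧ nz (q * γ) * (K : ℝ) ^ k ≤ Q ^ E * σ

/-- block A3 (Weyl inverse theorem over primes, leading coefficient) -/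
def VpStmt : Prop :=
  ∀ k : ℕ, 1 ≤ k → ∃ E : ℕ, 1 ≤ E ∧ ∀ (g : ℝ[X]) (Q : ℝ) (N : ℕ), g.natDegree ≤ k → 2 ≤ Q →
    Real.log N ≤ Q → Q ^ E ≤ (N : ℝ) →
    (N : ℝ) ≤ Q * ‖∑ n ∈ Icc 1 N, (ArithmeticFunction.vonMangoldt n : ℂ) * ee (g.eval (n : ℝ))‖ →
    ∃ s : ℕ, 1 ≤ s ∧ (s : ℝ) ≤ Q ^ E ∧ nz (s * g.coeff k) * (N : ℝ) ^ k ≤ Q ^ E

/-- block A4 (minor arcs) -/
def MinPStmt : Prop :=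
  ∀ k : ℕ, 2 ≤ k → ∀ C : ℝ, 1 ≤ C → ∃ (E : ℕ) (K : ℝ), 1 ≤ E ∧ 1 ≤ K ∧
  ∀ (f : ℤ[X]) (u : ℤ) (v H x0 X : ℕ) (g δ B θ : ℝ), f.natDegree = k → 0 < f.leadingCoeff →
    0 < δ → δ ≤ 1 → 1 ≤ B → (∀ j : ℕ, |(f.coeff j : ℝ)| ≤ B) → |(u : ℝ)| ≤ B → 1 ≤ v →
    (v : ℝ) ≤ B → Real.log H ≤ B → (K * B / δ) ^ E ≤ (H : ℝ) → Grow k f H x0 X g C →
    ‖SxP f u v H x0 X θ‖ ≤ δ ∨
      ∃ (q : ℕ) (a : ℤ), 1 ≤ q ∧ (q : ℝ) ≤ (K * B / δ) ^ E ∧ |θ - a / q| ≤ (K * B / δ) ^ E / H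

/-- block A6 (major arcs) -/
def MajPStmt : Prop :=
  ∃ Cm : ℝ, 1 ≤ Cm ∧ ∀ (k : ℕ) (f : ℤ[X]) (u : ℤ) (v H x0 X q : ℕ) (a : ℤ) (g C θ B : ℝ),
    1 ≤ H → 1 ≤ q → 1 ≤ v → Int.gcd u v = 1 → 1 ≤ B → |(u : ℝ)| ≤ B → (v : ℝ) ≤ B →
    Grow k f H x0 X g C →
    ‖SxP f u v H x0 X θ - GamL f u v a q * Vk H (θ - (a : ℝ) / q)‖ ≤
      Cm * (q * B) ^ 2 * (1 + |θ - (a : ℝ) / q| * H) * (g / H) * (X : ℝ) ^ ((95 : ℝ) / 96)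

/-- the pointwise claim -/
def PointPStmt : Prop :=
  ∀ k : ℕ, 2 ≤ k → ∃ (E : ℕ) (K : ℝ), 1 ≤ E ∧ 1 ≤ K ∧
  ∀ (f : ℤ[X]) (u : ℤ) (v H Q : ℕ) (δ B : ℝ), f.natDegree = k → 0 < f.leadingCoeff →
    0 < δ → δ ≤ 1 → 1 ≤ B → (∀ j : ℕ, |(f.coeff j : ℝ)| ≤ B) → |(u : ℝ)| ≤ B → 1 ≤ v →
    (v : ℝ) ≤ B → Int.gcd u v = 1 → Real.log H ≤ B →
    (K * B / δ) ^ E ≤ (Q : ℝ) → (K * B * Q / δ) ^ E ≤ (H : ℝ) →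
    ∃ x0 X : ℕ, 1 ≤ x0 ∧ ∀ θ : ℝ,
      ‖SxP f u v H x0 X θ - MnC (fun a q => GamL f u v a q) H Q θ‖ ≤ δ

/-- block FOU over primes -/
def FouPStmt : Prop :=
  ∀ (f : ℤ[X]) (u : ℤ) (v N' H Q x0 X : ℕ) (c : ℕ → ℕ → ℂ) (δ : ℝ) (G : ℤ → ℝ),
    1 ≤ H → 8 * H ≤ N' → 1 ≤ x0 → 0 ≤ δ → (∀ n, G n ≠ 0 → 1 ≤ n ∧ n ≤ N') →
    (∀ n m : ℤ, G n ≠ 0 → G m ≠ 0 → ∀ x : ℕ, 1 ≤ x → PrL u v x →
      n - m = f.eval (x : ℤ) → n = m) →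
    (∀ θ : ℝ, ‖SxP f u v H x0 X θ - MnC c H Q θ‖ ≤ δ) →
    ‖∑ q ∈ Icc 1 Q, ∑ a ∈ (range q).filter (Nat.Coprime q),
      c a q * Bil G N' H ((a : ℝ) / q)‖ ≤ δ * (H : ℝ) ^ 2 * ∑ n ∈ Icc (1 : ℤ) N', G n ^ 2

/-- the circle method over primes (analogue of `H74.an_R`) -/
def AnPStmt : Prop :=
  ∀ k : ℕ, 2 ≤ k → ∃ (E : ℕ) (K : ℝ), 1 ≤ E ∧ 1 ≤ K ∧
  ∀ (f : ℤ[X]) (u : ℤ) (v N' H Q : ℕ) (δ B : ℝ) (G : ℤ → ℝ), f.natDegree = k →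
    0 < f.leadingCoeff → 0 < δ → δ ≤ 1 → 1 ≤ B → (∀ j : ℕ, |(f.coeff j : ℝ)| ≤ B) →
    |(u : ℝ)| ≤ B → 1 ≤ v → (v : ℝ) ≤ B → Int.gcd u v = 1 → Real.log N' ≤ B →
    8 * H ≤ N' → N' ≤ 16 * H → (K * B / δ) ^ E ≤ (Q : ℝ) → (K * B * Q / δ) ^ E ≤ (N' : ℝ) →
    (∀ n, G n ≠ 0 → 1 ≤ n ∧ n ≤ N') →
    (∀ n m : ℤ, G n ≠ 0 → G m ≠ 0 → ∀ x : ℕ, 1 ≤ x → PrL u v x →
      n - m = f.eval (x : ℤ) → n = m) →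
    ‖∑ q ∈ Icc 1 Q, ∑ a ∈ (range q).filter (Nat.Coprime q),
      GamL f u v a q * Bil G N' H ((a : ℝ) / q)‖ ≤
      δ * (H : ℝ) ^ 2 * ∑ n ∈ Icc (1 : ℤ) N', G n ^ 2

end Vale.Agent.P042PA
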