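import Vale.Agent.P042PA.Defs

set_option autoImplicit false
set_option linter.all false

/-!
P042, prime arguments: from sums over `x` with `u + v x` prime to von Mangoldt sums.
-/

namespace Vale.Agent.P042PA

open Polynomial Finset Vale.Agent.P042 Vale.Agent.P042.SS ArithmeticFunction

/-- detecting a residue class by additive characters -/
theorem cls_le (F : ℕ → ℂ) (u : ℤ) (v N : ℕ) (hv : 1 ≤ v) (T : ℝ)
    (h : ∀ j < v, ‖∑ n ∈ Icc 1 N, F n * e ((((n : ℤ) - u : ℤ) : ℝ) * ((j : ℝ) / v))‖ ≤ T) :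
    ‖∑ n ∈ (Icc 1 N).filter (fun n : ℕ => (v : ℤ) ∣ (n : ℤ) - u), F n‖ ≤ T := by
  have hv0 : (v : ℂ) ≠ 0 := by
    have : v ≠ 0 := by omega
    exact_mod_cast this
  have hvr : (0 : ℝ) < v := by exact_mod_cast hv
  have h1 : (v : ℂ) * ∑ n ∈ (Icc 1 N).filter (fun n : ℕ => (v : ℤ) ∣ (n : ℤ) - u), F n =
      ∑ j ∈ range v, ∑ n ∈ Icc 1 N, F n * e ((((n : ℤ) - u : ℤ) : ℝ) * ((j : ℝ) / v)) := by
    rw [sum_comm, sum_filter, mul_sum]
    refine sum_congr rfl fun n _ => ?_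
    rw [← mul_sum, AN.orth v hv]
    split_ifs
    · ring
    · ring
  have h2 : ‖(v : ℂ) * ∑ n ∈ (Icc 1 N).filter (fun n : ℕ => (v : ℤ) ∣ (n : ℤ) - u), F n‖ ≤
      v * T := by
    rw [h1]
    refine (norm_sum_le _ _).trans ?_
    refine (sum_le_card_nsmul _ _ T fun j hj => h j (mem_range.1 hj)).trans ?_
    rw [card_range, nsmul_eq_mul]
  rw [norm_mul, Complex.norm_natCast] at h2
  exact le_of_mul_le_mul_left h2 hvr

/-- reindexing the primes `u + v x`, `x < t` -/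
theorem pr_reindex (Φ G : ℕ → ℂ) (u : ℤ) (v t : ℕ) (hv : 1 ≤ v)
    (hG : ∀ x n : ℕ, (n : ℤ) = u + v * x → G x = Φ n) :
    ∑ x ∈ range t, (if PrL u v x then ((Real.log (((u + v * x : ℤ) : ℝ)) : ℝ) : ℂ) * G x else 0) =
      ∑ n ∈ ((Icc 1 (u + v * t - v).toNat).filter (fun n : ℕ => (v : ℤ) ∣ (n : ℤ) - u)).filter
        (fun n : ℕ => n.Prime ∧ u ≤ n), (vonMangoldt n : ℂ) * Φ n := by
  have hvz : (0 : ℤ) < v := by exact_mod_cast hv
  rw [← sum_filter]
  refine sum_bij' (fun x _ => (u + v * x).toNat) (fun n _ => (((n : ℤ) - u) / v).toNat) ?_ ?_ ?_ ?_ ?_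
  · intro x hx
    rw [mem_filter, mem_range] at hx
    have hp : (u + v * x).toNat.Prime := hx.2
    have h2 := hp.two_le
    have h3 : ((u + v * x).toNat : ℤ) = u + v * x := Int.toNat_of_nonneg (by omega)
    have h4 : (x : ℤ) + 1 ≤ t := by exact_mod_cast hx.1
    have h5 : (v : ℤ) * (x + 1) ≤ v * t := mul_le_mul_of_nonneg_left h4 hvz.le
    have h6 : (0 : ℤ) ≤ v * x := by positivity
    simp only [mem_filter, mem_Icc]
    refine ⟨⟨⟨by omega, ?_⟩, ?_⟩, hp, ?_⟩
    · apply Int.toNat_le_toNat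
      linarith
    · rw [h3]
      exact ⟨x, by ring⟩
    · rw [h3]
      linarith
  · intro n hn
    simp only [mem_filter, mem_Icc] at hn
    obtain ⟨⟨⟨h1, h2⟩, c, hc⟩, hp, hu⟩ := hn
    have hc0 : 0 ≤ c := by
      by_contra hneg
      have : (v : ℤ) * c < 0 := mul_neg_of_pos_of_neg hvz (by omega)
      omega
    have h3 : ((n : ℤ) - u) / v = c := by
      rw [hc]
      exact Int.mul_ediv_cancel_left _ hvz.ne'
    have h4 : ((c.toNat : ℕ) : ℤ) = c := Int.toNat_of_nonneg hc0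
    have h5 : u + v * ((c.toNat : ℕ) : ℤ) = n := by rw [h4]; linarith
    rw [mem_filter, mem_range, h3]
    refine ⟨?_, ?_⟩
    · have h6 : (n : ℤ) ≤ u + v * t - v := by omega
      have h7 : (v : ℤ) * (c + 1) ≤ v * t := by linarith
      have h8 : c + 1 ≤ t := le_of_mul_le_mul_left h7 hvz
      omega
    · unfold PrL
      rw [h5]
      exact hp
  · intro x hx
    rw [mem_filter, mem_range] at hx
    have hp : (u + v * x).toNat.Prime := hx.2
    have h2 := hp.two_le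
    have h3 : ((u + v * x).toNat : ℤ) = u + v * x := Int.toNat_of_nonneg (by omega)
    simp only [h3]
    rw [add_sub_cancel_left, Int.mul_ediv_cancel_left _ hvz.ne']
    simp
  · intro n hn
    simp only [mem_filter, mem_Icc] at hn
    obtain ⟨⟨⟨h1, h2⟩, c, hc⟩, hp, hu⟩ := hn
    have hc0 : 0 ≤ c := by
      by_contra hneg
      have : (v : ℤ) * c < 0 := mul_neg_of_pos_of_neg hvz (by omega)
      omega
    have h3 : ((n : ℤ) - u) / v = c := by
      rw [hc]
      exact Int.mul_ediv_cancel_left _ hvz.ne'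
    have h4 : ((c.toNat : ℕ) : ℤ) = c := Int.toNat_of_nonneg hc0
    have h5 : u + v * ((c.toNat : ℕ) : ℤ) = n := by rw [h4]; linarith
    simp only [h3, h5]
    simp
  · intro x hx
    rw [mem_filter, mem_range] at hx
    have hp : (u + v * x).toNat.Prime := hx.2
    have h2 := hp.two_le
    have h3 : ((u + v * x).toNat : ℤ) = u + v * x := Int.toNat_of_nonneg (by omega)
    have h4 : (((u + v * x).toNat : ℕ) : ℝ) = ((u + v * x : ℤ) : ℝ) := by
      rw [← Int.cast_natCast, h3]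
    rw [hG x _ h3, vonMangoldt_apply_prime hp, h4]

/-- the terms that are lost -/
theorem pr_err (Φ : ℕ → ℂ) (hΦ : ∀ n, ‖Φ n‖ ≤ 1) (u : ℤ) (N : ℕ) (c : ℕ → Prop) [DecidablePred c] :
    ‖∑ n ∈ (Icc 1 N).filter c, (vonMangoldt n : ℂ) * Φ n -
      ∑ n ∈ ((Icc 1 N).filter c).filter (fun n : ℕ => n.Prime ∧ u ≤ n),
        (vonMangoldt n : ℂ) * Φ n‖ ≤ 2 * Real.sqrt N * Real.log N + 6 * |(u : ℝ)| := by
  rw [← sum_filter_add_sum_filter_not ((Icc 1 N).filter c) (fun n : ℕ => n.Prime ∧ u ≤ n),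
    add_sub_cancel_left]
  refine (norm_sum_le _ _).trans ?_
  have h1 : ∀ n ∈ ((Icc 1 N).filter c).filter (fun n : ℕ => ¬ (n.Prime ∧ u ≤ n)),
      ‖(vonMangoldt n : ℂ) * Φ n‖ ≤ (if ¬ n.Prime then vonMangoldt n else 0) +
        (if (n : ℤ) < u then vonMangoldt n else 0) := by
    intro n hn
    have h0 : 0 ≤ vonMangoldt n := vonMangoldt_nonneg
    have h2 : ‖(vonMangoldt n : ℂ) * Φ n‖ ≤ vonMangoldt n := by
      rw [norm_mul, Complex.norm_real, Real.norm_eq_abs, abs_of_nonneg h0]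
      exact mul_le_of_le_one_right h0 (hΦ n)
    have h3 := (mem_filter.1 hn).2
    by_cases hp : n.Prime
    · have h4 : (n : ℤ) < u := by
        by_contra h5
        exact h3 ⟨hp, by omega⟩
      rw [if_pos h4, if_neg (not_not.2 hp)]
      linarith
    · rw [if_pos hp]
      split_ifs <;> linarith
  refine (sum_le_sum h1).trans ?_
  have hsub : ((Icc 1 N).filter c).filter (fun n : ℕ => ¬ (n.Prime ∧ u ≤ n)) ⊆ Icc 1 N :=
    (filter_subset _ _).trans (filter_subset _ _)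
  refine (sum_le_sum_of_subset_of_nonneg hsub fun n _ _ => ?_).trans ?_
  · have h0 : 0 ≤ vonMangoldt n := vonMangoldt_nonneg
    split_ifs <;> linarith
  rw [sum_add_distrib]
  refine add_le_add ?_ ?_
  · rw [← sum_filter]
    rcases Nat.eq_zero_or_pos N with h0 | h0
    · subst h0
      simp
    have h2 := Chebyshev.psi_sub_theta_eq_sum_not_prime (N : ℝ)
    rw [Nat.floor_natCast] at h2
    have h3 := Chebyshev.psi_sub_theta_le (x := (N : ℝ)) (by exact_mod_cast h0)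
    have h4 : Icc 1 N = Ioc 0 N := by
      ext n
      rw [mem_Icc, mem_Ioc]
      omega
    rw [h4, ← h2]
    exact h3
  · rw [← sum_filter]
    have h2 : (Icc 1 N).filter (fun n : ℕ => (n : ℤ) < u) ⊆ Ioc 0 u.natAbs := by
      intro n hn
      rw [mem_filter, mem_Icc] at hn
      rw [mem_Ioc]
      omega
    refine (sum_le_sum_of_subset_of_nonneg h2 fun _ _ _ => vonMangoldt_nonneg).trans ?_
    have h3 := Chebyshev.psi_le_const_mul_self (x := (u.natAbs : ℝ)) (Nat.cast_nonneg _)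
    unfold Chebyshev.psi at h3
    rw [Nat.floor_natCast] at h3
    refine h3.trans ?_
    have h4 : ((u.natAbs : ℕ) : ℝ) = |(u : ℝ)| := by
      rw [Nat.cast_natAbs, Int.cast_abs]
    rw [h4]
    refine mul_le_mul_of_nonneg_right ?_ (abs_nonneg _)
    have h5 : Real.log 4 ≤ 2 := by
      have h6 : Real.log 4 = 2 * Real.log 2 := by
        rw [show (4 : ℝ) = 2 ^ 2 by norm_num, Real.log_pow]
        norm_num
      have := Real.log_two_lt_d9
      linarith
    linarith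

/-- trivial bound -/
theorem lam_triv (Φ : ℕ → ℂ) (hΦ : ∀ n, ‖Φ n‖ ≤ 1) (N : ℕ) :
    ‖∑ n ∈ Icc 1 N, (vonMangoldt n : ℂ) * Φ n‖ ≤ 6 * N := by
  refine (norm_sum_le _ _).trans ?_
  have h1 : ∀ n ∈ Icc 1 N, ‖(vonMangoldt n : ℂ) * Φ n‖ ≤ vonMangoldt n := by
    intro n _
    have h0 : 0 ≤ vonMangoldt n := vonMangoldt_nonneg
    rw [norm_mul, Complex.norm_real, Real.norm_eq_abs, abs_of_nonneg h0]
    exact mul_le_of_le_one_right h0 (hΦ n)
  refine (sum_le_sum h1).trans ?_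
  have h3 := Chebyshev.psi_le_const_mul_self (x := (N : ℝ)) (Nat.cast_nonneg _)
  unfold Chebyshev.psi at h3
  rw [Nat.floor_natCast] at h3
  have h4 : Icc 1 N = Ioc 0 N := by
    ext n
    rw [mem_Icc, mem_Ioc]
    omega
  rw [h4]
  refine h3.trans (mul_le_mul_of_nonneg_right ?_ (Nat.cast_nonneg _))
  have h6 : Real.log 4 = 2 * Real.log 2 := by
    rw [show (4 : ℝ) = 2 ^ 2 by norm_num, Real.log_pow]
    norm_num
  have := Real.log_two_lt_d9
  linarith

/-- the real polynomial `θ f((n-u)/v) + (n-u) j / v` -/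
noncomputable def gpol (f : ℤ[X]) (u : ℤ) (v j : ℕ) (θ : ℝ) : ℝ[X] :=
  C θ * taylor (-(u : ℝ)) ((f.map (Int.castRingHom ℝ)).comp (C (1 / (v : ℝ)) * X)) +
    (C ((j : ℝ) / v) * X + C (-(u : ℝ) * ((j : ℝ) / v)))

theorem gpol_eval (f : ℤ[X]) (u : ℤ) (v j : ℕ) (θ y : ℝ) :
    (gpol f u v j θ).eval y = θ * (f.map (Int.castRingHom ℝ)).eval ((y - u) / v) +
      (y - u) * ((j : ℝ) / v) := by
  unfold gpol
  rw [eval_add, eval_mul, eval_C, taylor_eval, eval_comp]
  simp only [eval_add, eval_mul, eval_C, eval_X]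
  have h1 : 1 / (v : ℝ) * (y + -(u : ℝ)) = (y - u) / v := by ring
  rw [h1]
  ring

theorem gpol_deg (f : ℤ[X]) (u : ℤ) (v j k : ℕ) (θ : ℝ) (hk : 1 ≤ k) (hf : f.natDegree = k) :
    (gpol f u v j θ).natDegree ≤ k := by
  unfold gpol
  refine (natDegree_add_le _ _).trans (max_le ?_ ?_)
  · refine (natDegree_C_mul_le _ _).trans ?_
    rw [natDegree_taylor]
    refine natDegree_comp_le.trans ?_
    have h1 : (C (1 / (v : ℝ)) * X).natDegree ≤ 1 := (natDegree_C_mul_le _ _).trans natDegree_X_le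
    have h2 : (f.map (Int.castRingHom ℝ)).natDegree ≤ k := hf ▸ natDegree_map_le
    calc _ ≤ k * 1 := Nat.mul_le_mul h2 h1
      _ = k := mul_one k
  · exact (natDegree_linear_le).trans hk

theorem gpol_coeff (f : ℤ[X]) (u : ℤ) (v j k : ℕ) (θ : ℝ) (hk : 2 ≤ k) (hf : f.natDegree = k) :
    (gpol f u v j θ).coeff k = θ * (f.leadingCoeff : ℝ) / (v : ℝ) ^ k := by
  unfold gpol
  have h0 : ((f.map (Int.castRingHom ℝ)).comp (C (1 / (v : ℝ)) * X)).natDegree ≤ k := by
    refine natDegree_comp_le.trans ?_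
    have h1 : (C (1 / (v : ℝ)) * X).natDegree ≤ 1 := (natDegree_C_mul_le _ _).trans natDegree_X_le
    have h2 : (f.map (Int.castRingHom ℝ)).natDegree ≤ k := hf ▸ natDegree_map_le
    calc _ ≤ k * 1 := Nat.mul_le_mul h2 h1
      _ = k := mul_one k
  have h1 : (C ((j : ℝ) / v) * X + C (-(u : ℝ) * ((j : ℝ) / v))).coeff k = 0 :=
    coeff_eq_zero_of_natDegree_lt (lt_of_le_of_lt natDegree_linear_le (by omega))
  rw [coeff_add, h1, add_zero, coeff_C_mul, Vale.Agent.P042.taylor_coeff_sum _ _ k k h0,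
    sum_range_succ]
  have h2 : ∑ x ∈ range k, (x.choose k : ℝ) * (-(u : ℝ)) ^ (x - k) *
      ((f.map (Int.castRingHom ℝ)).comp (C (1 / (v : ℝ)) * X)).coeff x = 0 := by
    apply sum_eq_zero
    intro x hx
    rw [Nat.choose_eq_zero_of_lt (mem_range.1 hx)]
    simp
  rw [h2, comp_C_mul_X_coeff, coeff_map, leadingCoeff, hf]
  simp only [Nat.choose_self, Nat.cast_one, Nat.sub_self, pow_zero, one_mul, zero_add, eq_intCast,
    one_div, inv_pow]
  ring

end Vale.Agent.P042PA
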