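import Vale.Agent.P042PA.Min1

set_option autoImplicit false
set_option linter.all false

/-!
P042, prime arguments: minor arcs.
-/

namespace Vale.Agent.P042PA

open Polynomial Finset Vale.Agent.P042 Vale.Agent.P042.SS ArithmeticFunction

theorem tot_div_le (v : ℕ) (hv : 1 ≤ v) : (Nat.totient v : ℝ) / v ≤ 1 := by
  have hvr : (0 : ℝ) < v := by exact_mod_cast hv
  rw [div_le_one hvr]
  exact_mod_cast Nat.totient_le v

theorem num1 (Z X N : ℝ) (hZ : 2 ≤ Z) (hX : Z ^ 16 ≤ X) (hN0 : 0 ≤ N) (hN : N ≤ Z ^ 2 * X)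
    (L : ℝ) (hL0 : 0 ≤ L) (hL : L ≤ 4 * Z) :
    2 * Real.sqrt N * L + 6 * Z ≤ X / (2 * Z) := by
  have hZ0 : 0 < Z := by linarith
  have hX0 : 0 ≤ X := le_trans (by positivity) hX
  obtain ⟨s, hs⟩ : ∃ s, s = Real.sqrt X := ⟨_, rfl⟩
  have hs0 : 0 ≤ s := hs ▸ Real.sqrt_nonneg _
  have hss : s ^ 2 = X := hs ▸ Real.sq_sqrt hX0
  have h1 : Real.sqrt N ≤ Z * s := by
    rw [Real.sqrt_le_left (by positivity)]
    rw [mul_pow, hss]
    exact hN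
  have h2 : Z ^ 8 ≤ s := by
    rw [hs]
    apply Real.le_sqrt_of_sq_le
    rw [← pow_mul]
    exact hX
  have h3 : (32 : ℝ) ≤ Z ^ 5 := by
    calc (32 : ℝ) = 2 ^ 5 := by norm_num
      _ ≤ Z ^ 5 := pow_le_pow_left₀ (by norm_num) hZ 5
  have h4 : 32 * Z ^ 3 ≤ s := by
    calc 32 * Z ^ 3 ≤ Z ^ 5 * Z ^ 3 := mul_le_mul_of_nonneg_right h3 (by positivity)
      _ = Z ^ 8 := by ring
      _ ≤ s := h2
  have h5 : 2 * Real.sqrt N * L ≤ 2 * (Z * s) * (4 * Z) := by gcongr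
  have h6 : (1 : ℝ) ≤ Z := by linarith
  have h7 : Z ^ 2 ≤ Z ^ 3 := pow_le_pow_right₀ h6 (by norm_num)
  have h8 : 1 ≤ s := le_trans (one_le_pow₀ h6) h2
  rw [le_div_iff₀ (by positivity), ← hss]
  have h9 : (2 * (Z * s) * (4 * Z) + 6 * Z) * (2 * Z) = 16 * Z ^ 3 * s + 12 * Z ^ 2 := by ring
  have h10 : (2 * Real.sqrt N * L + 6 * Z) * (2 * Z) ≤ 16 * Z ^ 3 * s + 12 * Z ^ 2 := by
    rw [← h9]
    gcongr
  have h11 : Z ^ 3 ≤ Z ^ 3 * s := le_mul_of_one_le_right (by positivity) h8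
  have h12 : 32 * Z ^ 3 * s ≤ s * s := mul_le_mul_of_nonneg_right h4 hs0
  have h13 : 0 ≤ Z ^ 3 * s := by positivity
  nlinarith only [h10, h11, h12, h7, h13]

/-- a large initial sum forces a rational approximation of the leading coefficient -/
theorem part_inv {k E : ℕ} (hk : 2 ≤ k)
    (hV : ∀ (g : ℝ[X]) (Q : ℝ) (N : ℕ), g.natDegree ≤ k → 2 ≤ Q →
      Real.log N ≤ Q → Q ^ E ≤ (N : ℝ) →
      (N : ℝ) ≤ Q * ‖∑ n ∈ Icc 1 N, (vonMangoldt n : ℂ) * ee (g.eval (n : ℝ))‖ →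
      ∃ s : ℕ, 1 ≤ s ∧ (s : ℝ) ≤ Q ^ E ∧ nz (s * g.coeff k) * (N : ℝ) ^ k ≤ Q ^ E)
    (f : ℤ[X]) (u : ℤ) (v t X : ℕ) (θ Z : ℝ) (hf : f.natDegree = k) (hZ : 2 ≤ Z)
    (hu : |(u : ℝ)| ≤ Z) (hv : 1 ≤ v) (hvZ : (v : ℝ) ≤ Z) (ht : t ≤ X)
    (hlog : Real.log X ≤ 2 * Z) (hX : Z ^ (4 * E + 16) ≤ (X : ℝ))
    (hbig : (X : ℝ) / Z < ‖∑ x ∈ range t, (wP u v x : ℂ) * e (θ * (fv f x : ℝ))‖) :
    ∃ s : ℕ, 1 ≤ s ∧ (s : ℝ) ≤ Z ^ (4 * E) ∧
      nz (s * (θ * (f.leadingCoeff : ℝ) / (v : ℝ) ^ k)) * (X : ℝ) ^ k ≤ Z ^ (4 * E + 5 * k) := by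
  have hZ0 : 0 < Z := by linarith
  have hZ1 : 1 ≤ Z := by linarith
  have hvr : (0 : ℝ) < v := by exact_mod_cast hv
  have hX1 : (1 : ℝ) ≤ X := (one_le_pow₀ hZ1).trans hX
  have hX0 : (0 : ℝ) < X := by linarith
  obtain ⟨N, hN⟩ : ∃ N : ℕ, N = (u + v * t - v).toNat := ⟨_, rfl⟩
  obtain ⟨Φ, hΦ⟩ : ∃ Φ : ℕ → ℂ, ∀ n, Φ n =
      e (θ * (f.map (Int.castRingHom ℝ)).eval (((n : ℝ) - u) / v)) := ⟨_, fun _ => rfl⟩
  have hΦ1 : ∀ n, ‖Φ n‖ ≤ 1 := fun n => by rw [hΦ, norm_e]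
  have hG : ∀ x n : ℕ, (n : ℤ) = u + v * x → e (θ * (fv f x : ℝ)) = Φ n := by
    intro x n hn
    have h1 : (n : ℝ) = u + v * x := by exact_mod_cast hn
    have h2 : ((n : ℝ) - u) / v = ((x : ℤ) : ℝ) := by
      rw [h1]
      push_cast
      field_simp
      ring
    rw [hΦ, h2, eval_intCast_map]
    rfl
  have hre := pr_reindex Φ (fun x => e (θ * (fv f x : ℝ))) u v t hv hG
  rw [← hN] at hre
  have herr := pr_err Φ hΦ1 u N (fun n : ℕ => (v : ℤ) ∣ (n : ℤ) - u)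
  rw [← hre] at herr
  have hP : ∑ x ∈ range t, (wP u v x : ℂ) * e (θ * (fv f x : ℝ)) =
      (((Nat.totient v : ℝ) / v : ℝ) : ℂ) * ∑ x ∈ range t, (if PrL u v x then
        ((Real.log (((u + v * x : ℤ) : ℝ)) : ℝ) : ℂ) * e (θ * (fv f x : ℝ)) else 0) := by
    rw [mul_sum]
    refine sum_congr rfl fun x _ => ?_
    unfold wP
    split_ifs
    · rw [Complex.ofReal_mul, mul_assoc]
    · simp
  obtain ⟨A, hA⟩ : ∃ A : ℂ, A = ∑ x ∈ range t, (if PrL u v x then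
        ((Real.log (((u + v * x : ℤ) : ℝ)) : ℝ) : ℂ) * e (θ * (fv f x : ℝ)) else 0) := ⟨_, rfl⟩
  rw [← hA] at hP herr
  have hA1 : (X : ℝ) / Z < ‖A‖ := by
    rw [hP, norm_mul, Complex.norm_real, Real.norm_eq_abs, abs_of_nonneg (by positivity)] at hbig
    exact hbig.trans_le (mul_le_of_le_one_left (norm_nonneg _) (tot_div_le v hv))
  have hNle : (N : ℝ) ≤ Z ^ 2 * X := by
    have h1 : (N : ℤ) ≤ |u| + v * X := by
      have h2 : (v : ℤ) * t ≤ v * X := mul_le_mul_of_nonneg_left (by exact_mod_cast ht) (by positivity)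
      have h3 := le_abs_self u
      have h4 := abs_nonneg u
      have h5 : (0 : ℤ) ≤ v * X := by positivity
      rw [hN]
      omega
    have h2 : (N : ℝ) ≤ |(u : ℝ)| + v * X := by exact_mod_cast h1
    have h3 : (v : ℝ) * X ≤ Z * X := mul_le_mul_of_nonneg_right hvZ hX0.le
    have h4 : Z ≤ Z * X := le_mul_of_one_le_right hZ0.le hX1
    have h5 : 2 * (Z * X) ≤ Z * (Z * X) := mul_le_mul_of_nonneg_right hZ (by positivity)
    nlinarith only [h2, h3, h4, h5, hu]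
  have hlogN : Real.log N ≤ 4 * Z := by
    rcases Nat.eq_zero_or_pos N with h0 | h0
    · rw [h0]
      simp
      linarith
    have h1 : Real.log N ≤ Real.log (Z ^ 2 * X) :=
      Real.log_le_log (by exact_mod_cast h0) hNle
    rw [Real.log_mul (by positivity) hX0.ne', Real.log_pow] at h1
    have h2 := Real.log_le_sub_one_of_pos hZ0
    push_cast at h1
    linarith
  have hnum := num1 Z X N hZ ((pow_le_pow_right₀ hZ1 (by omega)).trans hX) (Nat.cast_nonneg _) hNle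
    (Real.log N) (Real.log_natCast_nonneg _) hlogN
  obtain ⟨W, hW⟩ : ∃ W : ℂ, W = ∑ n ∈ (Icc 1 N).filter (fun n : ℕ => (v : ℤ) ∣ (n : ℤ) - u),
      (vonMangoldt n : ℂ) * Φ n := ⟨_, rfl⟩
  rw [← hW] at herr
  have hW1 : (X : ℝ) / (2 * Z) < ‖W‖ := by
    have h1 : ‖A‖ ≤ ‖W‖ + ‖W - A‖ := by
      have h2 : A = W - (W - A) := by ring
      calc ‖A‖ = ‖W - (W - A)‖ := by rw [← h2]
        _ ≤ _ := norm_sub_le _ _
    have h3 : (X : ℝ) / Z = X / (2 * Z) + X / (2 * Z) := by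
      field_simp
      ring
    linarith
  have hex : ∃ j, j < v ∧ (X : ℝ) / (2 * Z) < ‖∑ n ∈ Icc 1 N, (vonMangoldt n : ℂ) * Φ n *
      e ((((n : ℤ) - u : ℤ) : ℝ) * ((j : ℝ) / v))‖ := by
    by_contra hcon
    push Not at hcon
    have := cls_le (fun n => (vonMangoldt n : ℂ) * Φ n) u v N hv _ hcon
    rw [← hW] at this
    linarith
  obtain ⟨j, -, hj⟩ := hex
  have hsum : ∑ n ∈ Icc 1 N, (vonMangoldt n : ℂ) * Φ n *
      e ((((n : ℤ) - u : ℤ) : ℝ) * ((j : ℝ) / v)) =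
      ∑ n ∈ Icc 1 N, (vonMangoldt n : ℂ) * ee ((gpol f u v j θ).eval (n : ℝ)) := by
    refine sum_congr rfl fun n _ => ?_
    rw [gpol_eval, hΦ, mul_assoc, ← e_add]
    push_cast
    rfl
  rw [hsum] at hj
  have htriv := lam_triv (fun n => ee ((gpol f u v j θ).eval (n : ℝ))) (fun n => (norm_ee _).le) N
  have hZ4 : (16 : ℝ) ≤ Z ^ 4 := by
    calc (16 : ℝ) = 2 ^ 4 := by norm_num
      _ ≤ Z ^ 4 := pow_le_pow_left₀ (by norm_num) hZ 4
  have hXN : (X : ℝ) ≤ Z ^ 5 * N := by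
    have h1 : (X : ℝ) / (2 * Z) ≤ 6 * N := (hj.trans_le htriv).le
    rw [div_le_iff₀ (by positivity)] at h1
    have h2 : 16 * (Z * N) ≤ Z ^ 4 * (Z * N) := mul_le_mul_of_nonneg_right hZ4 (by positivity)
    have h3 : 0 ≤ Z * N := by positivity
    nlinarith only [h1, h2, h3]
  have hZ3 : (8 : ℝ) ≤ Z ^ 3 := by
    calc (8 : ℝ) = 2 ^ 3 := by norm_num
      _ ≤ Z ^ 3 := pow_le_pow_left₀ (by norm_num) hZ 3
  obtain ⟨s, hs1, hs2, hs3⟩ := hV (gpol f u v j θ) (Z ^ 4) N (gpol_deg f u v j k θ (by omega) hf)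
    (by linarith) (by
      have : 8 * Z ≤ Z ^ 3 * Z := mul_le_mul_of_nonneg_right hZ3 hZ0.le
      nlinarith only [this, hlogN, hZ0]) (by
      have h1 : Z ^ 5 * (Z ^ 4) ^ E ≤ Z ^ 5 * N := by
        refine le_trans ?_ (hX.trans hXN)
        rw [← pow_mul, ← pow_add]
        exact pow_le_pow_right₀ hZ1 (by omega)
      exact le_of_mul_le_mul_left h1 (by positivity)) (by
      rw [div_lt_iff₀ (by positivity)] at hj
      obtain ⟨Y, hY⟩ : ∃ Y, Y = ‖∑ n ∈ Icc 1 N, (vonMangoldt n : ℂ) *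
        ee ((gpol f u v j θ).eval (n : ℝ))‖ := ⟨_, rfl⟩
      rw [← hY] at hj ⊢
      have hY0 : 0 ≤ Y := hY ▸ norm_nonneg _
      have h1 : Z ^ 2 * X ≤ Z ^ 2 * (Y * (2 * Z)) := mul_le_mul_of_nonneg_left hj.le (by positivity)
      have h2 : 2 * (Z ^ 3 * Y) ≤ Z * (Z ^ 3 * Y) := mul_le_mul_of_nonneg_right hZ (by positivity)
      nlinarith only [h1, h2, hNle])
  rw [← pow_mul] at hs2 hs3
  rw [gpol_coeff f u v j k θ hk hf] at hs3
  refine ⟨s, hs1, hs2, ?_⟩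
  have h1 : (X : ℝ) ^ k ≤ (Z ^ 5 * N) ^ k := pow_le_pow_left₀ hX0.le hXN k
  calc _ ≤ nz (s * (θ * (f.leadingCoeff : ℝ) / (v : ℝ) ^ k)) * (Z ^ 5 * N) ^ k :=
        mul_le_mul_of_nonneg_left h1 (nz_nonneg _)
    _ = (nz (s * (θ * (f.leadingCoeff : ℝ) / (v : ℝ) ^ k)) * (N : ℝ) ^ k) * Z ^ (5 * k) := by
        rw [mul_pow, ← pow_mul]
        ring
    _ ≤ Z ^ (4 * E) * Z ^ (5 * k) := mul_le_mul_of_nonneg_right hs3 (by positivity)
    _ = _ := by rw [← pow_add]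

/-- Abel summation -/
theorem abelP (k : ℕ) (f : ℤ[X]) (u : ℤ) (v H x0 X : ℕ) (g C T θ : ℝ) (hH : 1 ≤ H)
    (hG : Grow k f H x0 X g C) (hT0 : 0 ≤ T)
    (hT : ∀ t ≤ X, ‖∑ x ∈ range t, (wP u v x : ℂ) * e (θ * (fv f x : ℝ))‖ ≤ T * X) :
    ‖SxP f u v H x0 X θ‖ ≤ 34 * T * C := by
  have hHpos : (0 : ℝ) < H := by exact_mod_cast hH
  obtain ⟨w, hw⟩ : ∃ w : ℕ → ℂ, ∀ x, w x = ((gp f x * vt H (fv f x) : ℝ) : ℂ) := ⟨_, fun _ => rfl⟩
  obtain ⟨hv1, hv2⟩ := var_of vt_holds k f H x0 X g C 0 hH hG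
  simp only [e_zero, mul_one, abs_zero, zero_mul, add_zero] at hv1 hv2
  have hab := PS463.abel w (fun x => (wP u v x : ℂ) * e (θ * (fv f x : ℝ))) x0 X hG.x0lt.le
    (T * X) hT
  have hS : SxP f u v H x0 X θ =
      ∑ x ∈ Ico x0 X, w x * ((wP u v x : ℂ) * e (θ * (fv f x : ℝ))) := by
    unfold SxP
    refine sum_congr rfl fun x _ => ?_
    rw [hw, Complex.ofReal_mul, mul_assoc]
  rw [hS]
  refine hab.trans ?_
  have b1 : ‖w x0‖ ≤ g / H := by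
    rw [hw]
    exact hv1 x0 le_rfl hG.x0lt.le
  have b2 : ‖w X‖ ≤ g / H := by
    rw [hw]
    exact hv1 X hG.x0lt.le le_rfl
  have b3 : ∑ x ∈ Ico x0 X, ‖w (x + 1) - w x‖ ≤ 32 * g / H := by
    refine le_trans (le_of_eq (sum_congr rfl fun x _ => ?_)) hv2
    rw [hw, hw]
  have hgX : g / H * X ≤ C := by
    have := hG.gX
    rw [div_mul_eq_mul_div, div_le_iff₀ hHpos]
    exact this
  calc T * X * (‖w x0‖ + ‖w X‖ + ∑ x ∈ Ico x0 X, ‖w (x + 1) - w x‖)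
      ≤ T * X * (g / H + g / H + 32 * g / H) := by gcongr
    _ = 34 * T * (g / H * X) := by ring
    _ ≤ 34 * T * C := by gcongr

/-- block A4 from block A3 -/
theorem minP_of (hVp : VpStmt) : MinPStmt := by
  intro k hk C hC
  obtain ⟨E, hE, hV⟩ := hVp k (by omega)
  refine ⟨2 + k * (4 * E + 16) + (4 * E + 6 * k + 1), 34 * C, by omega, by linarith, ?_⟩
  intro f u v H x0 X g δ B θ hdeg hlead hδ hδ1 hB hcoef hu hv hvB hlog hH hG
  obtain ⟨Z, hZ⟩ : ∃ Z, Z = 34 * C * B / δ := ⟨_, rfl⟩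
  rw [← hZ] at hH ⊢
  have hCB : 34 * C * B ≤ Z := by
    rw [hZ, le_div_iff₀ hδ]
    exact mul_le_of_le_one_right (by positivity) hδ1
  have hCB1 : C ≤ C * B := le_mul_of_one_le_right (by linarith) hB
  have hCB2 : B ≤ C * B := le_mul_of_one_le_left (by linarith) hC
  have hCZ : C ≤ Z := by linarith
  have hBZ : B ≤ Z := by linarith
  have hZ2 : 2 ≤ Z := by linarith
  have hZ1 : 1 ≤ Z := by linarith
  have hZ0 : 0 < Z := by linarith
  have hH1 : (1 : ℝ) ≤ H := (one_le_pow₀ hZ1).trans hH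
  have hH0 : (0 : ℝ) < H := by linarith
  have hHn : 1 ≤ H := by exact_mod_cast hH1
  have hlc : (f.leadingCoeff : ℝ) ≤ B := (le_abs_self _).trans (hcoef f.natDegree)
  have hlc1 : (1 : ℝ) ≤ f.leadingCoeff := by exact_mod_cast hlead
  have hX1 : (1 : ℝ) ≤ X := by
    have := hG.x0lt
    have : 1 ≤ X := by omega
    exact_mod_cast this
  have hX0 : (0 : ℝ) < X := by linarith
  have hg1 : 1 ≤ g := (hG.gpos x0 le_rfl).trans (hG.gle x0 le_rfl hG.x0lt.le)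
  have hXH : (X : ℝ) ≤ Z * H := by
    have h1 := hG.gX
    have h2 : (X : ℝ) ≤ g * X := le_mul_of_one_le_left hX0.le hg1
    have h3 : C * H ≤ Z * H := mul_le_mul_of_nonneg_right hCZ hH0.le
    linarith
  have hlogX : Real.log X ≤ 2 * Z := by
    have h1 := Real.log_le_log hX0 hXH
    rw [Real.log_mul hZ0.ne' hH0.ne'] at h1
    have h2 := Real.log_le_sub_one_of_pos hZ0
    linarith
  have hXbig : Z ^ (4 * E + 16) ≤ (X : ℝ) := by
    have h1 : (H : ℝ) ≤ Z ^ 2 * (X : ℝ) ^ k := by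
      refine hG.lead.trans (mul_le_mul_of_nonneg_right ?_ (by positivity))
      rw [sq]
      exact mul_le_mul hCZ (hlc.trans hBZ) (by linarith) hZ0.le
    have h2 : Z ^ 2 * (Z ^ (4 * E + 16)) ^ k ≤ Z ^ 2 * (X : ℝ) ^ k := by
      refine le_trans ?_ (hH.trans h1)
      rw [← pow_mul, ← pow_add]
      refine pow_le_pow_right₀ hZ1 ?_
      rw [mul_comm (4 * E + 16) k]
      omega
    have h3 := le_of_mul_le_mul_left h2 (by positivity : 0 < Z ^ 2)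
    exact le_of_pow_le_pow_left₀ (by omega) hX0.le h3
  by_cases hall : ∀ t ≤ X, ‖∑ x ∈ range t, (wP u v x : ℂ) * e (θ * (fv f x : ℝ))‖ ≤ 1 / Z * X
  · left
    refine (abelP k f u v H x0 X g C (1 / Z) θ hHn hG (by positivity) hall).trans ?_
    rw [hZ]
    have h1 : 34 * (1 / (34 * C * B / δ)) * C = δ / B := by
      field_simp
    rw [h1]
    exact div_le_self hδ.le hB
  right
  push Not at hall
  obtain ⟨t, ht, hbig⟩ := hall
  rw [one_div_mul_eq_div] at hbig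
  obtain ⟨s, hs1, hs2, hs3⟩ := part_inv hk hV f u v t X θ Z hdeg hZ2 (hu.trans hBZ) hv
    (hvB.trans hBZ) ht hlogX hXbig hbig
  have hvr : (1 : ℝ) ≤ v := by exact_mod_cast hv
  have hsr : (1 : ℝ) ≤ s := by exact_mod_cast hs1
  have hl : ((f.leadingCoeff.toNat : ℕ) : ℝ) = f.leadingCoeff := by
    rw [← Int.cast_natCast, Int.toNat_of_nonneg hlead.le]
  obtain ⟨a0, ha0⟩ : ∃ a0 : ℤ, a0 = round (s * (θ * (f.leadingCoeff : ℝ) / (v : ℝ) ^ k)) := ⟨_, rfl⟩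
  rw [nz_eq, ← ha0] at hs3
  refine ⟨s * f.leadingCoeff.toNat, a0 * (v : ℤ) ^ k, Nat.mul_pos hs1 (by omega), ?_, ?_⟩
  · rw [Nat.cast_mul, hl]
    calc (s : ℝ) * f.leadingCoeff ≤ Z ^ (4 * E) * Z :=
          mul_le_mul hs2 (hlc.trans hBZ) (by linarith) (by positivity)
      _ = Z ^ (4 * E + 1) := by rw [pow_succ]
      _ ≤ _ := pow_le_pow_right₀ hZ1 (by omega)
  · rw [Nat.cast_mul, hl]
    have h1 : θ - ((a0 * (v : ℤ) ^ k : ℤ) : ℝ) / (s * f.leadingCoeff) =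
        (v : ℝ) ^ k / (s * f.leadingCoeff) *
          (s * (θ * (f.leadingCoeff : ℝ) / (v : ℝ) ^ k) - a0) := by
      push_cast
      field_simp
    rw [h1, abs_mul, abs_of_pos (by positivity), le_div_iff₀ hH0]
    obtain ⟨D, hD⟩ : ∃ D, D = |s * (θ * (f.leadingCoeff : ℝ) / (v : ℝ) ^ k) - a0| := ⟨_, rfl⟩
    rw [← hD] at hs3 ⊢
    have hD0 : 0 ≤ D := hD ▸ abs_nonneg _
    have h2 : (v : ℝ) ^ k ≤ Z ^ k := pow_le_pow_left₀ (by linarith) (hvB.trans hBZ) k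
    have h3 : (v : ℝ) ^ k / (s * f.leadingCoeff) ≤ Z ^ k / f.leadingCoeff := by
      apply div_le_div₀ (by positivity) h2 (by linarith)
      exact le_mul_of_one_le_left (by linarith) hsr
    have h4 : (H : ℝ) ≤ Z * f.leadingCoeff * (X : ℝ) ^ k := by
      refine hG.lead.trans ?_
      gcongr
    calc (v : ℝ) ^ k / (s * f.leadingCoeff) * D * H
        ≤ Z ^ k / f.leadingCoeff * D * (Z * f.leadingCoeff * (X : ℝ) ^ k) := by gcongr
      _ = Z ^ k * Z * (D * (X : ℝ) ^ k) := by field_simp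
      _ ≤ Z ^ k * Z * Z ^ (4 * E + 5 * k) := by gcongr
      _ = Z ^ (4 * E + 6 * k + 1) := by ring
      _ ≤ _ := pow_le_pow_right₀ hZ1 (by omega)

end Vale.Agent.P042PA
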