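import Vale.Agent.P042PA.Defs
import Vale.Agent.P042PU.Un

set_option autoImplicit false
set_option linter.all false

/-!
P042, prime arguments: the pointwise comparison of the Weyl sum over primes with its main term.
-/

namespace Vale.Agent.P042PA

open Polynomial Finset Vale.Agent.P042 Vale.Agent.P042.SS Vale.Agent.P042.SS.SEP

/-- separation of the fractions, general coefficients -/
theorem sepC (c : ℕ → ℕ → ℂ) (hc : ∀ a q, 1 ≤ q → ‖c a q‖ ≤ 1) (H Q : ℕ) (θ : ℝ) (hH : 1 ≤ H)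
    (hQ : 1 ≤ Q) :
    ∃ q a : ℕ, 1 ≤ q ∧ q ≤ Q ∧
      ‖MnC c H Q θ - c a q * Vk H (θ - (a : ℝ) / q)‖ ≤ (Q : ℝ) ^ 6 / (H : ℝ) ^ 2 ∧
      ∀ q' a' : ℕ, 1 ≤ q' → q' ≤ Q → a' < q' → Nat.Coprime q' a' → (q', a') ≠ (q, a) →
        ∀ n : ℤ, 1 / (2 * (Q : ℝ) ^ 2) ≤ |θ - (a' : ℝ) / q' - n| := by
  obtain ⟨q, a, hq1, hqQ, haq, hcop, -, hfar⟩ := sep_of vt_holds 0 H Q θ hH hQ
  obtain ⟨-, -, -, -, -, -, -, -, hdec⟩ := vt_holds H hH
  have hHr : (0 : ℝ) < H := by exact_mod_cast hH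
  have hQr : (0 : ℝ) < Q := by exact_mod_cast hQ
  refine ⟨q, a, hq1, hqQ, ?_, hfar⟩
  have ht : (⟨q, a⟩ : Σ _ : ℕ, ℕ) ∈ Tf Q := mem_Tf.2 ⟨⟨hq1, hqQ⟩, haq, hcop⟩
  have hM : MnC c H Q θ = ∑ t ∈ Tf Q, c t.2 t.1 * Vk H (θ - (t.2 : ℝ) / t.1) := by
    unfold MnC Tf
    rw [Finset.sum_sigma]
  rw [hM, ← Finset.add_sum_erase _ _ ht, add_sub_cancel_left]
  refine (norm_sum_le _ _).trans ?_
  have h1 : ∀ t' ∈ (Tf Q).erase ⟨q, a⟩, ‖c t'.2 t'.1 * Vk H (θ - (t'.2 : ℝ) / t'.1)‖ ≤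
      (Q : ℝ) ^ 4 / (H : ℝ) ^ 2 := by
    intro t' ht1
    rw [Finset.mem_erase] at ht1
    have ht2 := mem_Tf.1 ht1.2
    rw [norm_mul]
    have h2 := hdec (θ - (t'.2 : ℝ) / t'.1) (1 / (2 * (Q : ℝ) ^ 2)) (by positivity)
      (hfar t'.1 t'.2 ht2.1.1 ht2.1.2 ht2.2.1 ht2.2.2 (by
        intro h
        apply ht1.1
        rcases t' with ⟨q', a'⟩
        rw [Prod.mk.injEq] at h
        obtain ⟨h6, h7⟩ := h
        simp only at h6 h7
        rw [h6, h7]))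
    have h3 := hc t'.2 t'.1 ht2.1.1
    calc ‖c t'.2 t'.1‖ * ‖Vk H (θ - (t'.2 : ℝ) / t'.1)‖ ≤
        1 * (1 / (4 * (H : ℝ) ^ 2 * (1 / (2 * (Q : ℝ) ^ 2)) ^ 2)) :=
          mul_le_mul h3 h2 (norm_nonneg _) zero_le_one
      _ = (Q : ℝ) ^ 4 / (H : ℝ) ^ 2 := by
        field_simp
        norm_num
  refine (Finset.sum_le_sum h1).trans ?_
  rw [Finset.sum_const, nsmul_eq_mul]
  have h2 : (((Tf Q).erase ⟨q, a⟩).card : ℝ) ≤ (Q : ℝ) ^ 2 := by
    have : ((Tf Q).erase ⟨q, a⟩).card ≤ Q ^ 2 :=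
      (Finset.card_le_card (Finset.erase_subset _ _)).trans (card_Tf Q)
    exact_mod_cast this
  calc (((Tf Q).erase ⟨q, a⟩).card : ℝ) * ((Q : ℝ) ^ 4 / (H : ℝ) ^ 2) ≤
      (Q : ℝ) ^ 2 * ((Q : ℝ) ^ 4 / (H : ℝ) ^ 2) := mul_le_mul_of_nonneg_right h2 (by positivity)
    _ = (Q : ℝ) ^ 6 / (H : ℝ) ^ 2 := by ring

/-- a fraction in lowest terms, numerator reduced -/
theorem red_frac (q0 : ℕ) (a0 : ℤ) (hq0 : 1 ≤ q0) :
    ∃ (q b : ℕ) (n : ℤ), 1 ≤ q ∧ q ≤ q0 ∧ b < q ∧ Nat.Coprime q b ∧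
      (a0 : ℝ) / q0 = (b : ℝ) / q + n := by
  obtain ⟨q, a, hq, hqq0, hcop', hred⟩ := exists_reduced q0 a0 hq0
  have hqr0 : (0 : ℝ) < q := by exact_mod_cast hq
  have hqz : (0 : ℤ) < q := by exact_mod_cast hq
  have hr0 : 0 ≤ a % (q : ℤ) := Int.emod_nonneg _ hqz.ne'
  have hrq : a % (q : ℤ) < q := Int.emod_lt_of_pos _ hqz
  have har : a = a % (q : ℤ) + q * (a / (q : ℤ)) := by
    have := Int.emod_add_mul_ediv a q
    linarith only [this]
  obtain ⟨b, hb⟩ := Int.eq_ofNat_of_zero_le hr0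
  rw [hb] at hrq har
  refine ⟨q, b, a / (q : ℤ), hq, hqq0, by exact_mod_cast hrq, ?_, ?_⟩
  · have h1 : IsCoprime ((b : ℤ) + q * (a / (q : ℤ))) (q : ℤ) := by rw [← har]; exact hcop'
    have h2 : IsCoprime (b : ℤ) (q : ℤ) := IsCoprime.of_add_mul_left_left h1
    exact (Nat.isCoprime_iff_coprime.1 h2).symm
  · rw [hred]
    have h1 : (a : ℝ) = b + q * ((a / (q : ℤ) : ℤ) : ℝ) := by exact_mod_cast har
    rw [h1, add_div, mul_div_cancel_left₀ _ hqr0.ne']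

/-- the error on the major arcs -/
theorem maj_num (Cm C B Q W δ X g H q y : ℝ) (hCm : 1 ≤ Cm) (hC : 1 ≤ C) (hB : 1 ≤ B) (hQ : 1 ≤ Q)
    (hδ : 0 < δ) (hδ1 : δ ≤ 1) (hW : 4 * Cm * C * B * Q / δ ≤ W) (hX : W ^ 288 ≤ X) (hH : 0 < H)
    (hg0 : 0 ≤ g) (hg : g * X ≤ C * H) (hq0 : 0 ≤ q) (hq : q ≤ Q) (hy0 : 0 ≤ y) (hy : y ≤ Q) :
    Cm * (q * B) ^ 2 * (1 + y) * (g / H) * X ^ ((95 : ℝ) / 96) ≤ δ / 2 := by
  have hA : 1 ≤ Cm * C := one_le_mul_of_one_le_of_one_le hCm hC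
  have hBQ : 1 ≤ B * Q := one_le_mul_of_one_le_of_one_le hB hQ
  have hBQW : B * Q ≤ W := by
    refine le_trans ?_ hW
    rw [le_div_iff₀ hδ]
    have h1 : B * Q * δ ≤ B * Q := mul_le_of_le_one_right (by linarith) hδ1
    have h2 : B * Q ≤ Cm * C * (B * Q) := le_mul_of_one_le_left (by linarith) hA
    nlinarith only [h1, h2, hBQ]
  have hW1 : 1 ≤ W := hBQ.trans hBQW
  have hW0 : 0 < W := by linarith
  have hX1 : 1 ≤ X := (one_le_pow₀ hW1).trans hX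
  have hX0 : 0 < X := by linarith
  have h1 : W ^ 3 ≤ X ^ ((1 : ℝ) / 96) := by
    have h2 : W ^ 3 = (W ^ 288) ^ ((1 : ℝ) / 96) := by
      rw [← Real.rpow_natCast W 288, ← Real.rpow_mul hW0.le, ← Real.rpow_natCast W 3]
      norm_num
    rw [h2]
    exact Real.rpow_le_rpow (by positivity) hX (by norm_num)
  have h3 : X ^ ((95 : ℝ) / 96) * X ^ ((1 : ℝ) / 96) = X := by
    rw [← Real.rpow_add hX0]
    norm_num
  obtain ⟨Y, hY⟩ : ∃ Y, Y = X ^ ((95 : ℝ) / 96) := ⟨_, rfl⟩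
  rw [← hY] at h3 ⊢
  have hY0 : 0 ≤ Y := hY ▸ Real.rpow_nonneg hX0.le _
  have h4 : Y * W ^ 3 ≤ X := by
    rw [← h3]
    exact mul_le_mul_of_nonneg_left h1 hY0
  have h5 : g / H * Y ≤ C / W ^ 3 := by
    rw [div_mul_eq_mul_div, div_le_div_iff₀ hH (by positivity)]
    calc g * Y * W ^ 3 = g * (Y * W ^ 3) := by ring
      _ ≤ g * X := mul_le_mul_of_nonneg_left h4 hg0
      _ ≤ C * H := hg
  have h6 : 4 * Cm * C * B * Q ≤ W * δ := by rwa [div_le_iff₀ hδ] at hW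
  have h7 : (B * Q) ^ 2 ≤ W ^ 2 := pow_le_pow_left₀ (by linarith) hBQW 2
  have h8 : 4 * Cm * C * Q ≤ W * δ := by
    have : 4 * Cm * C * Q * 1 ≤ 4 * Cm * C * Q * B :=
      mul_le_mul_of_nonneg_left hB (by positivity)
    linarith
  calc Cm * (q * B) ^ 2 * (1 + y) * (g / H) * Y = Cm * (q * B) ^ 2 * (1 + y) * (g / H * Y) := by ring
    _ ≤ Cm * (Q * B) ^ 2 * (Q + Q) * (C / W ^ 3) := by gcongr
    _ = (B * Q) ^ 2 * (4 * Cm * C * Q) / (2 * W ^ 3) := by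
        field_simp
        ring
    _ ≤ W ^ 2 * (W * δ) / (2 * W ^ 3) := by gcongr
    _ = δ / 2 := by field_simp

/-- the pointwise claim -/
theorem pointP_of (hMin : MinPStmt) (hMaj : MajPStmt) : PointPStmt := by
  intro k hk
  obtain ⟨C, Eg, hC, hEg, hGr⟩ := grow_holds k hk
  obtain ⟨E1, K1, hE1, hK1, hMin⟩ := hMin k hk C hC
  obtain ⟨Cm, hCm, hMaj⟩ := hMaj
  have hA : 1 ≤ Cm * C := one_le_mul_of_one_le_of_one_le hCm hC
  have hCA : C ≤ Cm * C := le_mul_of_one_le_left (by linarith) hCm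
  refine ⟨E1 + Eg + 288 * k + 4, 4 * K1 + 4 * Cm * C, by omega, by linarith, ?_⟩
  intro f u v H Q δ B hdeg hlead hδ hδ1 hB hcoef hu hv hvB hcop hlog hQ hH
  obtain ⟨K, hK⟩ : ∃ K, K = 4 * K1 + 4 * Cm * C := ⟨_, rfl⟩
  rw [← hK] at hQ hH
  have hK4 : 4 ≤ K := by linarith
  have hKB : K ≤ K * B := le_mul_of_one_le_right (by linarith) hB
  have hZ1 : 1 / δ ≤ K * B / δ := div_le_div_of_nonneg_right (by linarith) hδ.le
  have hδi : 1 ≤ 1 / δ := by rw [le_div_iff₀ hδ]; linarith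
  have hZ : 1 ≤ K * B / δ := hδi.trans hZ1
  have hQ1 : (1 : ℝ) ≤ Q := (one_le_pow₀ hZ).trans hQ
  have hQδ : 1 / δ ≤ Q := hZ1.trans ((le_self_pow₀ hZ (by omega)).trans hQ)
  have hT : (K1 * B / (δ / 4)) ^ E1 ≤ Q := by
    refine le_trans ?_ hQ
    refine le_trans (pow_le_pow_left₀ (by positivity) ?_ _) (pow_le_pow_right₀ hZ (by omega))
    rw [div_div_eq_mul_div]
    refine div_le_div_of_nonneg_right ?_ hδ.le
    have : 4 * K1 * B ≤ K * B := mul_le_mul_of_nonneg_right (by linarith) (by linarith)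
    linarith
  obtain ⟨W, hW⟩ : ∃ W, W = K * B * Q / δ := ⟨_, rfl⟩
  rw [← hW] at hH
  have hW1 : K * B * Q ≤ W := by
    rw [hW, le_div_iff₀ hδ]
    exact mul_le_of_le_one_right (by positivity) hδ1
  have hW2 : 4 * Q / δ ≤ W := by
    rw [hW]
    refine div_le_div_of_nonneg_right ?_ hδ.le
    exact mul_le_mul_of_nonneg_right (by linarith) (by linarith)
  have hW3 : 4 * Q ≤ W := le_trans (mul_le_mul_of_nonneg_right (by linarith) (by linarith)) hW1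
  have hW4 : C * B ≤ W := by
    have h1 : C * B ≤ K * B := mul_le_mul_of_nonneg_right (by linarith) (by linarith)
    have h2 : K * B ≤ K * B * Q := le_mul_of_one_le_right (by positivity) hQ1
    linarith
  have hW5 : 4 * Cm * C * B * Q / δ ≤ W := by
    rw [hW]
    refine div_le_div_of_nonneg_right ?_ hδ.le
    have : 4 * Cm * C ≤ K := by linarith
    gcongr
  have hWone : 1 ≤ W := by linarith
  have hHb : ∀ j ≤ E1 + Eg + 288 * k + 4, W ^ j ≤ H := fun j hj =>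
    (pow_le_pow_right₀ hWone hj).trans hH
  have hH1r : (1 : ℝ) ≤ H := by simpa using hHb 0 (Nat.zero_le _)
  have hH0 : (0 : ℝ) < H := by linarith
  have hH1 : 1 ≤ H := by exact_mod_cast hH1r
  have hQn : 1 ≤ Q := by exact_mod_cast hQ1
  have hQH : (Q : ℝ) ≤ H := by
    have := hHb 1 (by omega)
    rw [pow_one] at this
    linarith
  have hQ3 : 64 * (Q : ℝ) ^ 3 ≤ H := by
    refine le_trans ?_ (hHb 3 (by omega))
    calc 64 * (Q : ℝ) ^ 3 = (4 * Q) ^ 3 := by ring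
      _ ≤ W ^ 3 := pow_le_pow_left₀ (by positivity) hW3 3
  have hQ6 : (Q : ℝ) ^ 6 / (H : ℝ) ^ 2 ≤ δ / 4 := by
    have h1 : (4 * Q / δ) * (Q : ℝ) ^ 2 ≤ H := by
      refine le_trans ?_ (hHb 3 (by omega))
      have h2 : (Q : ℝ) ^ 2 ≤ W ^ 2 := pow_le_pow_left₀ (by positivity) (by linarith) 2
      calc (4 * Q / δ) * (Q : ℝ) ^ 2 ≤ W * W ^ 2 := by gcongr
        _ = W ^ 3 := by ring
    rw [div_mul_eq_mul_div, div_le_iff₀ hδ] at h1
    rw [div_le_div_iff₀ (by positivity) (by norm_num)]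
    have h3 : (Q : ℝ) ^ 3 ≤ H := by
      have : 0 ≤ (Q : ℝ) ^ 3 := by positivity
      linarith
    calc (Q : ℝ) ^ 6 * 4 = (4 * Q * (Q : ℝ) ^ 2) * (Q : ℝ) ^ 3 := by ring
      _ ≤ (H * δ) * H := by gcongr
      _ = δ * (H : ℝ) ^ 2 := by ring
  obtain ⟨x0, X, g, hG⟩ := hGr f H B hdeg hlead hB hcoef
    ((pow_le_pow_left₀ (by positivity) hW4 _).trans (hHb Eg (by omega)))
  refine ⟨x0, X, hG.x0pos, fun θ => ?_⟩
  have hc : ∀ a q : ℕ, 1 ≤ q → ‖GamL f u v a q‖ ≤ 1 := fun a q hq =>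
    P042PU.norm_GamL_le f a hv hq hcop
  obtain ⟨qs, as, hqs1, hqsQ, hMn, hfar⟩ := sepC (fun a q => GamL f u v a q) hc H Q θ hH1 hQn
  obtain ⟨_, _, _, _, _, _, hVper, _, hVdec⟩ := vt_holds H hH1
  have hMn' := hMn.trans hQ6
  have hqs0 : (0 : ℝ) < qs := by exact_mod_cast hqs1
  by_cases hcase : ∃ n : ℤ, |θ - (as : ℝ) / qs - n| ≤ Q / H
  · obtain ⟨n, hn⟩ := hcase
    have hmaj := hMaj k f u v H x0 X qs (as + qs * n) g C θ B hH1 hqs1 hv hcop hB hu hvB hG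
    have h3 : θ - ((as + qs * n : ℤ) : ℝ) / qs = θ - (as : ℝ) / qs - n := by
      push_cast
      field_simp
      ring
    have hVa : Vk H (θ - (as : ℝ) / qs - n) = Vk H (θ - (as : ℝ) / qs) := by
      have := hVper (θ - (as : ℝ) / qs) (-n)
      rw [← this]
      congr 1
      push_cast
      ring
    rw [h3, hVa, P042PU.GamL_add f u v as n hqs1] at hmaj
    have hX0 : (0 : ℝ) ≤ X := Nat.cast_nonneg _
    have hXbig : W ^ 288 ≤ (X : ℝ) := by
      have h4 : (f.leadingCoeff : ℝ) ≤ B := (le_abs_self _).trans (hcoef f.natDegree)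
      have h5 : (H : ℝ) ≤ W * (X : ℝ) ^ k := by
        refine hG.lead.trans (mul_le_mul_of_nonneg_right ?_ (by positivity))
        exact (mul_le_mul_of_nonneg_left h4 (by linarith)).trans hW4
      have h6 : W * (W ^ 288) ^ k ≤ W * (X : ℝ) ^ k := by
        refine le_trans ?_ h5
        rw [← pow_mul, ← pow_succ']
        exact hHb _ (by omega)
      have h7 := le_of_mul_le_mul_left h6 (by linarith : 0 < W)
      exact le_of_pow_le_pow_left₀ (by omega) hX0 h7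
    have hg0 : 0 ≤ g := by
      have h1 := hG.gpos x0 le_rfl
      have h2 := hG.gle x0 le_rfl hG.x0lt.le
      linarith only [h1, h2]
    have hsmall := maj_num Cm C B Q W δ X g H qs (|θ - (as : ℝ) / qs - n| * H) hCm hC hB hQ1 hδ hδ1
      hW5 hXbig hH0 hg0 hG.gX hqs0.le (by exact_mod_cast hqsQ) (by positivity)
      (by rwa [le_div_iff₀ hH0] at hn)
    calc ‖SxP f u v H x0 X θ - MnC (fun a q => GamL f u v a q) H Q θ‖
        = ‖(SxP f u v H x0 X θ - GamL f u v as qs * Vk H (θ - (as : ℝ) / qs)) -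
          (MnC (fun a q => GamL f u v a q) H Q θ -
            GamL f u v as qs * Vk H (θ - (as : ℝ) / qs))‖ := by congr 1; ring
      _ ≤ δ / 2 + δ / 4 := (norm_sub_le _ _).trans (add_le_add (hmaj.trans hsmall) hMn')
      _ ≤ δ := by linarith only [hδ]
  · push Not at hcase
    have hS : ‖SxP f u v H x0 X θ‖ ≤ δ / 4 := by
      rcases hMin f u v H x0 X g (δ / 4) B θ hdeg hlead (by positivity) (by linarith only [hδ1])
        hB hcoef hu hv hvB hlog (hT.trans hQH) hG with h | ⟨q0, a0, hq0, hqK, hθ⟩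
      · exact h
      · exfalso
        obtain ⟨q, b, n, hq, hqq, hbq, hcb, hred⟩ := red_frac q0 a0 hq0
        have hθ' : |θ - (b : ℝ) / q - n| ≤ Q / H := by
          have h1 : θ - (b : ℝ) / q - n = θ - a0 / q0 := by rw [hred]; ring
          rw [h1]
          exact hθ.trans (div_le_div_of_nonneg_right hT hH0.le)
        have hqQ : q ≤ Q := by
          have : (q0 : ℝ) ≤ Q := hqK.trans hT
          have : q0 ≤ Q := by exact_mod_cast this
          omega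
        by_cases heq : (q, b) = (qs, as)
        · rw [Prod.mk.injEq] at heq
          obtain ⟨he1, he2⟩ := heq
          subst he1 he2
          exact absurd hθ' (not_le.2 (hcase n))
        · have h2 := (hfar q b hq hqQ hbq hcb heq n).trans hθ'
          rw [div_le_div_iff₀ (by positivity) hH0] at h2
          have h4 : 0 < (Q : ℝ) ^ 3 := by positivity
          nlinarith only [h2, h4, hQ3]
    have hTm : ‖GamL f u v as qs * Vk H (θ - (as : ℝ) / qs)‖ ≤ δ / 4 := by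
      rw [norm_mul]
      have h3 := hVdec (θ - (as : ℝ) / qs) (Q / H) (by positivity) (fun n => (hcase n).le)
      have h4 : 1 / (4 * (H : ℝ) ^ 2 * ((Q : ℝ) / H) ^ 2) ≤ δ / 4 := by
        have e1 : 4 * (H : ℝ) ^ 2 * ((Q : ℝ) / H) ^ 2 = 4 * (Q : ℝ) ^ 2 := by
          field_simp
        rw [e1, div_le_div_iff₀ (by positivity) (by norm_num)]
        rw [div_le_iff₀ hδ] at hQδ
        nlinarith only [hQδ, hQ1, hδ, mul_le_mul_of_nonneg_left hQ1 (by positivity : 0 ≤ (Q : ℝ) * δ)]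
      calc _ ≤ 1 * (δ / 4) := mul_le_mul (hc as qs hqs1) (h3.trans h4) (norm_nonneg _) zero_le_one
        _ = δ / 4 := one_mul _
    calc ‖SxP f u v H x0 X θ - MnC (fun a q => GamL f u v a q) H Q θ‖
        = ‖SxP f u v H x0 X θ - GamL f u v as qs * Vk H (θ - (as : ℝ) / qs) -
          (MnC (fun a q => GamL f u v a q) H Q θ -
            GamL f u v as qs * Vk H (θ - (as : ℝ) / qs))‖ := by congr 1; ring
      _ ≤ (δ / 4 + δ / 4) + δ / 4 := by
          refine (norm_sub_le _ _).trans (add_le_add ?_ hMn')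
          exact (norm_sub_le _ _).trans (add_le_add hS hTm)
      _ ≤ δ := by linarith only [hδ]

end Vale.Agent.P042PA
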