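import Vale.Agent.P042PA.Top0
import Vale.Agent.P042PM.Maj

set_option autoImplicit false
set_option linter.all false

/-!
P042, prime arguments: block AN from the zero free half plane.
-/

namespace Vale.Agent.P042PA

theorem anp (h : Vale.Agent.P005Z.PT.QRH) : P042P.ANP := anp_of_maj (P042PM.majP_of h)

end Vale.Agent.P042PA
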