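import Vale.Agent.P042PA.Vau2
import Vale.Agent.P042PA.Min2
import Vale.Agent.P042PA.Point
import Vale.Agent.P042PA.Anu
import Vale.Agent.P042PH.Main

set_option autoImplicit false
set_option linter.all false

/-!
P042, prime arguments: block AN from the major arc estimate.
-/

namespace Vale.Agent.P042PA

theorem vp_holds : VpStmt := P042PH.vp_of vau_holds P042PH.rec_holds

theorem anp_of_maj (h : MajPStmt) : P042P.ANP :=
  anp_of (P042PH.anP_of (pointP_of (minP_of vp_holds) h))

end Vale.Agent.P042PA
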