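import Vale.Agent.P042PA.Defs
import Mathlib.NumberTheory.Harmonic.Bounds

set_option autoImplicit false
set_option linter.all false

/-!
P042, prime arguments: the Vaughan identity and the type I sums.
-/

namespace Vale.Agent.P042PA.Va

open Finset ArithmeticFunction

theorem sum_convC (f g : ArithmeticFunction ℝ) (φ : ℕ → ℂ) (x : ℕ) :
    ∑ n ∈ Icc 1 x, ((f * g) n : ℂ) * φ n =
      ∑ d ∈ Icc 1 x, (f d : ℂ) * ∑ m ∈ Icc 1 (x / d), (g m : ℂ) * φ (d * m) := by
  simp_rw [ArithmeticFunction.mul_apply, Complex.ofReal_sum, Finset.sum_mul, Finset.mul_sum]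
  rw [Finset.sum_sigma', Finset.sum_sigma']
  apply Finset.sum_bij' (fun (s : Σ _ : ℕ, ℕ × ℕ) _ => (⟨s.2.1, s.2.2⟩ : Σ _ : ℕ, ℕ))
    (fun s _ => (⟨s.1 * s.2, (s.1, s.2)⟩ : Σ _ : ℕ, ℕ × ℕ))
  · rintro ⟨n, d, m⟩ h
    simp only [Finset.mem_sigma, Finset.mem_Icc, Nat.mem_divisorsAntidiagonal] at h ⊢
    obtain ⟨⟨h1, h2⟩, h3, h4⟩ := h
    have hd : 0 < d := Nat.pos_of_ne_zero (by rintro rfl; simp at h3; omega)
    have hm : 0 < m := Nat.pos_of_ne_zero (by rintro rfl; simp at h3; omega)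
    refine ⟨⟨hd, ?_⟩, hm, ?_⟩
    · calc d ≤ d * m := Nat.le_mul_of_pos_right d hm
        _ ≤ x := by omega
    · rw [Nat.le_div_iff_mul_le hd]
      rw [mul_comm]; omega
  · rintro ⟨d, m⟩ h
    simp only [Finset.mem_sigma, Finset.mem_Icc, Nat.mem_divisorsAntidiagonal] at h ⊢
    obtain ⟨⟨h1, h2⟩, h3, h4⟩ := h
    rw [Nat.le_div_iff_mul_le (by omega)] at h4
    refine ⟨⟨Nat.mul_pos h1 h3, ?_⟩, trivial, ?_⟩
    · rw [mul_comm]; exact h4
    · exact (Nat.mul_pos h1 h3).ne'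
  · rintro ⟨n, d, m⟩ h
    simp only [Finset.mem_sigma, Finset.mem_Icc, Nat.mem_divisorsAntidiagonal] at h
    obtain ⟨⟨h1, h2⟩, h3, h4⟩ := h
    simp only [h3]
  · rintro ⟨d, m⟩ h
    rfl
  · rintro ⟨n, d, m⟩ h
    simp only [Finset.mem_sigma, Finset.mem_Icc, Nat.mem_divisorsAntidiagonal] at h
    obtain ⟨⟨h1, h2⟩, h3, h4⟩ := h
    simp only [h3]
    push_cast
    ring

/-- lower cut -/
noncomputable def lo (f : ArithmeticFunction ℝ) (U : ℕ) : ArithmeticFunction ℝ :=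
  ⟨fun n => if n ≤ U then f n else 0, by simp⟩

/-- upper cut -/
noncomputable def hi (f : ArithmeticFunction ℝ) (U : ℕ) : ArithmeticFunction ℝ :=
  ⟨fun n => if n ≤ U then 0 else f n, by simp⟩

lemma lo_apply (f : ArithmeticFunction ℝ) (U n : ℕ) : lo f U n = if n ≤ U then f n else 0 := rfl
lemma hi_apply (f : ArithmeticFunction ℝ) (U n : ℕ) : hi f U n = if n ≤ U then 0 else f n := rfl

lemma lo_add_hi (f : ArithmeticFunction ℝ) (U : ℕ) : lo f U + hi f U = f := by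
  ext n
  rw [ArithmeticFunction.add_apply, lo_apply, hi_apply]
  split_ifs <;> simp

/-- The real Moebius function. -/
noncomputable def mu : ArithmeticFunction ℝ := (ArithmeticFunction.moebius : ArithmeticFunction ℝ)
/-- The real zeta function. -/
noncomputable def ze : ArithmeticFunction ℝ := (ArithmeticFunction.zeta : ArithmeticFunction ℝ)

lemma mu_mul_ze : mu * ze = 1 := coe_moebius_mul_coe_zeta

lemma vaughan (U : ℕ) :
    vonMangoldt + (lo vonMangoldt U * lo mu U) * ze = lo vonMangoldt U +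
      lo mu U * ArithmeticFunction.log + hi mu U * (hi vonMangoldt U * ze) := by
  have h1 : vonMangoldt * ze = ArithmeticFunction.log := vonMangoldt_mul_zeta
  have h2 : mu * ze = 1 := mu_mul_ze
  have h3 := lo_add_hi vonMangoldt U
  have h4 := lo_add_hi mu U
  rw [← h1]
  have h5 : hi vonMangoldt U = vonMangoldt - lo vonMangoldt U := eq_sub_of_add_eq' h3
  have h6 : hi mu U = mu - lo mu U := eq_sub_of_add_eq' h4
  rw [h5, h6]
  linear_combination (lo vonMangoldt U - vonMangoldt) * h2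

/-- Abel summation with a monotone weight -/
theorem abelC (a : ℕ → ℂ) (h : ℕ → ℝ) (hmono : Monotone h) (h0 : 0 ≤ h 0) (y : ℕ) (K : ℝ)
    (ha : ∀ j ≤ y, ‖∑ m ∈ Icc 1 j, a m‖ ≤ K) :
    ‖∑ m ∈ Icc 1 y, (h m : ℂ) * a m‖ ≤ 2 * h y * K := by
  have hK : 0 ≤ K := (norm_nonneg _).trans (ha 0 (Nat.zero_le _))
  have hh : ∀ y, 0 ≤ h y := fun y => h0.trans (hmono (Nat.zero_le y))
  have key : ∀ z ≤ y, ‖∑ m ∈ Icc 1 z, (h m : ℂ) * a m - (h z : ℂ) * ∑ m ∈ Icc 1 z, a m‖ ≤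
      h z * K := by
    intro z
    induction z with
    | zero => intro _; simpa using mul_nonneg h0 hK
    | succ z ih =>
      intro hz
      rw [sum_Icc_succ_top (by omega), sum_Icc_succ_top (by omega)]
      have e1 : ∑ m ∈ Icc 1 z, (h m : ℂ) * a m + (h (z + 1) : ℂ) * a (z + 1) -
          (h (z + 1) : ℂ) * (∑ m ∈ Icc 1 z, a m + a (z + 1)) =
          (∑ m ∈ Icc 1 z, (h m : ℂ) * a m - (h z : ℂ) * ∑ m ∈ Icc 1 z, a m) -
            ((h (z + 1) - h z : ℝ) : ℂ) * ∑ m ∈ Icc 1 z, a m := by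
        push_cast
        ring
      rw [e1]
      have hd : 0 ≤ h (z + 1) - h z := sub_nonneg.2 (hmono (Nat.le_succ z))
      refine (norm_sub_le _ _).trans ?_
      rw [norm_mul, Complex.norm_real, Real.norm_eq_abs, abs_of_nonneg hd]
      have h1 := ih (by omega)
      have h2 := mul_le_mul_of_nonneg_left (ha z (by omega)) hd
      linarith
  have h1 := key y le_rfl
  have h2 : ‖(h y : ℂ) * ∑ m ∈ Icc 1 y, a m‖ ≤ h y * K := by
    rw [norm_mul, Complex.norm_real, Real.norm_eq_abs, abs_of_nonneg (hh y)]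
    exact mul_le_mul_of_nonneg_left (ha y le_rfl) (hh y)
  have h3 := norm_add_le (∑ m ∈ Icc 1 y, (h m : ℂ) * a m - (h y : ℂ) * ∑ m ∈ Icc 1 y, a m)
    ((h y : ℂ) * ∑ m ∈ Icc 1 y, a m)
  rw [sub_add_cancel] at h3
  linarith

theorem harm (N : ℕ) : ∑ m ∈ Icc 1 N, 1 / (m : ℝ) ≤ 1 + Real.log N := by
  have h := harmonic_le_one_add_log N
  rw [harmonic_eq_sum_Icc] at h
  push_cast at h
  simpa only [one_div] using h

theorem abs_mu_le (n : ℕ) : |mu n| ≤ 1 := by
  unfold mu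
  rw [intCoe_apply]
  exact_mod_cast abs_moebius_le_one

theorem abs_lo_mu (V n : ℕ) : |lo mu V n| ≤ 1 := by
  rw [lo_apply]
  split_ifs
  · exact abs_mu_le n
  · simp

theorem abs_hi_mu (V n : ℕ) : |hi mu V n| ≤ 1 := by
  rw [hi_apply]
  split_ifs
  · simp
  · exact abs_mu_le n

/-- a convolution of a minorant of `Λ` with a bounded function is at most `log` -/
theorem abs_conv_le (f g : ArithmeticFunction ℝ) (hf : ∀ n, |f n| ≤ vonMangoldt n)
    (hg : ∀ n, |g n| ≤ 1) (n : ℕ) : |(f * g) n| ≤ Real.log n := by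
  rw [mul_apply, ← vonMangoldt_sum, ← Nat.sum_divisorsAntidiagonal (fun a _ => vonMangoldt a)]
  refine (abs_sum_le_sum_abs _ _).trans (sum_le_sum fun p _ => ?_)
  rw [abs_mul]
  exact (mul_le_of_le_one_right (abs_nonneg _) (hg _)).trans (hf _)

theorem abs_lo_vM (U n : ℕ) : |lo vonMangoldt U n| ≤ vonMangoldt n := by
  rw [lo_apply]
  split_ifs
  · exact (abs_of_nonneg vonMangoldt_nonneg).le
  · simpa using vonMangoldt_nonneg

theorem abs_hi_vM (U n : ℕ) : |hi vonMangoldt U n| ≤ vonMangoldt n := by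
  rw [hi_apply]
  split_ifs
  · simpa using vonMangoldt_nonneg
  · exact (abs_of_nonneg vonMangoldt_nonneg).le

theorem abs_ze (n : ℕ) : |ze n| ≤ 1 := by
  unfold ze
  rw [natCoe_apply, zeta_apply]
  split_ifs <;> simp

theorem ze_one {n : ℕ} (hn : 1 ≤ n) : ze n = 1 := by
  unfold ze
  rw [natCoe_apply, zeta_apply, if_neg (by omega)]
  simp

theorem lo_lo_zero (f g : ArithmeticFunction ℝ) (U V n : ℕ) (h : U * V < n) :
    (lo f U * lo g V) n = 0 := by
  rw [mul_apply]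
  refine sum_eq_zero fun p hp => ?_
  have hp1 := (Nat.mem_divisorsAntidiagonal.1 hp).1
  rw [lo_apply, lo_apply]
  split_ifs with h1 h2
  · have := Nat.mul_le_mul h1 h2
    omega
  all_goals simp

theorem hi_conv_zero (f g : ArithmeticFunction ℝ) (U n : ℕ) (h : n ≤ U) :
    (hi f U * g) n = 0 := by
  rw [mul_apply]
  refine sum_eq_zero fun p hp => ?_
  have hp1 := Nat.fst_mem_divisors_of_mem_antidiagonal hp
  have := Nat.divisor_le hp1
  rw [hi_apply, if_pos (by omega), zero_mul]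

theorem log_le {n N : ℕ} (hn : n ∈ Icc 1 N) : Real.log n ≤ Real.log N := by
  rw [mem_Icc] at hn
  exact Real.log_le_log (by exact_mod_cast hn.1) (by exact_mod_cast hn.2)

theorem log_mono : Monotone fun m : ℕ => Real.log m := by
  intro a b hab
  rcases Nat.eq_zero_or_pos a with rfl | ha
  · simpa using Real.log_natCast_nonneg b
  · exact Real.log_le_log (by exact_mod_cast ha) (by exact_mod_cast hab)

/-- type I sums -/
theorem typeI (N D : ℕ) (c : ℕ → ℝ) (F : ℕ → ℂ) (B B' : ℝ) (hB : 0 ≤ B) (hB' : 0 ≤ B')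
    (hc : ∀ d ∈ Icc 1 N, |c d| ≤ B) (hc0 : ∀ d, D < d → c d = 0)
    (hF : ∀ d ∈ Icc 1 N, d ≤ D → ‖F d‖ ≤ B' / d) :
    ‖∑ d ∈ Icc 1 N, (c d : ℂ) * F d‖ ≤ B * B' * (1 + Real.log N) := by
  refine (norm_sum_le _ _).trans ?_
  have h1 : ∀ d ∈ Icc 1 N, ‖(c d : ℂ) * F d‖ ≤ B * B' * (1 / (d : ℝ)) := by
    intro d hd
    by_cases hD : d ≤ D
    · rw [norm_mul, Complex.norm_real, Real.norm_eq_abs, mul_assoc, mul_one_div]
      exact mul_le_mul (hc d hd) (hF d hd hD) (norm_nonneg _) hB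
    · rw [hc0 d (by omega)]
      simp only [Complex.ofReal_zero, zero_mul, norm_zero]
      positivity
  refine (sum_le_sum h1).trans ?_
  rw [← mul_sum]
  exact mul_le_mul_of_nonneg_left (harm N) (by positivity)

section
variable (φ : ℕ → ℂ) (N U : ℕ) (δ : ℝ)

/-- the short term -/
theorem term1 (hφ : ∀ n, ‖φ n‖ ≤ 1) :
    ‖∑ n ∈ Icc 1 N, (lo vonMangoldt U n : ℂ) * φ n‖ ≤ U * Real.log N := by
  refine (norm_sum_le _ _).trans ?_
  have hL := Real.log_natCast_nonneg N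
  have h1 : ∀ n ∈ Icc 1 N, ‖(lo vonMangoldt U n : ℂ) * φ n‖ ≤
      if n ∈ Icc 1 U then Real.log N else 0 := by
    intro n hn
    have hn1 := (mem_Icc.1 hn).1
    rw [norm_mul, Complex.norm_real, Real.norm_eq_abs]
    refine (mul_le_of_le_one_right (abs_nonneg _) (hφ n)).trans ?_
    by_cases h : n ≤ U
    · rw [if_pos (mem_Icc.2 ⟨hn1, h⟩)]
      exact (abs_lo_vM U n).trans (vonMangoldt_le_log.trans (log_le hn))
    · rw [if_neg (fun h2 => h (mem_Icc.1 h2).2), lo_apply, if_neg h, abs_zero]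
  refine (sum_le_sum h1).trans ?_
  rw [← sum_filter, sum_const, nsmul_eq_mul]
  refine mul_le_mul_of_nonneg_right ?_ hL
  have h2 : ((Icc 1 N).filter (fun n => n ∈ Icc 1 U)).card ≤ (Icc 1 U).card :=
    card_le_card fun n hn => (mem_filter.1 hn).2
  rw [Nat.card_Icc] at h2
  exact_mod_cast (by omega : ((Icc 1 N).filter (fun n => n ∈ Icc 1 U)).card ≤ U)

/-- the term with the logarithm -/
theorem term2 (hU : 1 ≤ U) (hδ : 0 < δ)
    (hI : ∀ d t : ℕ, 1 ≤ d → d ≤ U ^ 2 → d * t ≤ N → ‖∑ m ∈ Icc 1 t, φ (d * m)‖ ≤ δ * N / d) :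
    ‖∑ n ∈ Icc 1 N, ((lo mu U * ArithmeticFunction.log) n : ℂ) * φ n‖ ≤
      2 * Real.log N * (δ * N) * (1 + Real.log N) := by
  have hL := Real.log_natCast_nonneg N
  rw [sum_convC]
  refine (typeI N U _ _ 1 (2 * Real.log N * (δ * N)) zero_le_one (by positivity)
    (fun d _ => abs_lo_mu U d) (fun d hd => by rw [lo_apply, if_neg (by omega)])
    fun d hd hdU => ?_).trans (by rw [one_mul])
  have hd1 := (mem_Icc.1 hd).1
  have h := abelC (fun m => φ (d * m)) (fun m => Real.log m) log_mono (by simp)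
    (N / d) (δ * N / d) fun j hj => hI d j hd1 (hdU.trans (Nat.le_self_pow (by norm_num) U))
      ((Nat.mul_le_mul_left d hj).trans (Nat.mul_div_le N d))
  simp only [log_apply]
  refine h.trans ?_
  rw [mul_div_assoc (2 * Real.log N)]
  refine mul_le_mul_of_nonneg_right ?_ (by positivity)
  exact mul_le_mul_of_nonneg_left (log_mono (Nat.div_le_self N d)) zero_le_two

/-- the second type I term -/
theorem term3 (hδ : 0 < δ)
    (hI : ∀ d t : ℕ, 1 ≤ d → d ≤ U ^ 2 → d * t ≤ N → ‖∑ m ∈ Icc 1 t, φ (d * m)‖ ≤ δ * N / d) :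
    ‖∑ n ∈ Icc 1 N, (((lo vonMangoldt U * lo mu U) * ze) n : ℂ) * φ n‖ ≤
      Real.log N * (δ * N) * (1 + Real.log N) := by
  have hL := Real.log_natCast_nonneg N
  rw [sum_convC]
  refine typeI N (U * U) _ _ (Real.log N) (δ * N) hL (by positivity)
    (fun d hd => (abs_conv_le _ _ (abs_lo_vM U) (abs_lo_mu U) d).trans (log_le hd))
    (fun d hd => lo_lo_zero _ _ U U d hd) fun d hd hdU => ?_
  have hd1 := (mem_Icc.1 hd).1
  refine le_trans (le_of_eq ?_) (hI d (N / d) hd1 (by rw [sq]; exact hdU) (Nat.mul_div_le N d))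
  congr 1
  refine sum_congr rfl fun m hm => ?_
  rw [ze_one (mem_Icc.1 hm).1]
  simp

end

end Vale.Agent.P042PA.Va
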