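import Vale.Agent.P042PA.Vau1

set_option autoImplicit false
set_option linter.all false

/-!
P042, prime arguments: the type II sums and the abstract Vaughan estimate.
-/

namespace Vale.Agent.P042PA.Va

open Finset ArithmeticFunction

/-- the correlation with the weight `m` -/
noncomputable def Psi (φ : ℕ → ℂ) (N n n' : ℕ) : ℝ :=
  ‖∑ m ∈ Icc 1 (N / n), ((m : ℝ) : ℂ) * (φ (m * n) * (starRingEnd ℂ) (φ (m * n')))‖

theorem Psi_nonneg (φ : ℕ → ℂ) (N n n' : ℕ) : 0 ≤ Psi φ N n n' := norm_nonneg _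

/-- expansion of the square -/
theorem expand (φ : ℕ → ℂ) (N : ℕ) (b : ℕ → ℝ) :
    ((∑ m ∈ Icc 1 N, (m : ℝ) * ‖∑ n ∈ Icc 1 (N / m), (b n : ℂ) * φ (m * n)‖ ^ 2 : ℝ) : ℂ) =
      ∑ n₁ ∈ Icc 1 N, ∑ n₂ ∈ Icc 1 N, (b n₁ : ℂ) * b n₂ *
        ∑ m ∈ Icc 1 (N / max n₁ n₂),
          ((m : ℝ) : ℂ) * (φ (m * n₁) * (starRingEnd ℂ) (φ (m * n₂))) := by
  have h1 : ∀ m ∈ Icc 1 N,
      (((m : ℝ) * ‖∑ n ∈ Icc 1 (N / m), (b n : ℂ) * φ (m * n)‖ ^ 2 : ℝ) : ℂ) =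
      ∑ n₁ ∈ Icc 1 N, ∑ n₂ ∈ Icc 1 N, if m ≤ N / max n₁ n₂ then (b n₁ : ℂ) * b n₂ *
        (((m : ℝ) : ℂ) * (φ (m * n₁) * (starRingEnd ℂ) (φ (m * n₂)))) else 0 := by
    intro m hm
    have hm0 : 0 < m := (mem_Icc.1 hm).1
    have hS : ∑ n ∈ Icc 1 (N / m), (b n : ℂ) * φ (m * n) =
        ∑ n ∈ Icc 1 N, if n ≤ N / m then (b n : ℂ) * φ (m * n) else 0 := by
      rw [← sum_filter]
      refine sum_congr ?_ fun _ _ => rfl
      ext n
      have := Nat.div_le_self N m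
      simp only [mem_Icc, mem_filter]
      omega
    rw [Complex.ofReal_mul, ← Complex.normSq_eq_norm_sq, ← Complex.mul_conj, hS, map_sum,
      sum_mul_sum, mul_sum]
    refine sum_congr rfl fun n₁ hn₁ => ?_
    rw [mul_sum]
    refine sum_congr rfl fun n₂ hn₂ => ?_
    have h2 : m ≤ N / max n₁ n₂ ↔ n₁ ≤ N / m ∧ n₂ ≤ N / m := by
      have := (mem_Icc.1 hn₁).1
      rw [Nat.le_div_iff_mul_le (by omega), mul_comm, ← Nat.le_div_iff_mul_le hm0, max_le_iff]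
    by_cases ha : n₁ ≤ N / m
    · by_cases hb : n₂ ≤ N / m
      · rw [if_pos ha, if_pos hb, if_pos (h2.2 ⟨ha, hb⟩), map_mul, Complex.conj_ofReal]
        ring
      · rw [if_neg hb, if_neg fun h => hb (h2.1 h).2]
        simp
    · rw [if_neg ha, if_neg fun h => ha (h2.1 h).1]
      simp
  rw [Complex.ofReal_sum, sum_congr rfl h1, sum_comm]
  refine sum_congr rfl fun n₁ hn₁ => ?_
  rw [sum_comm]
  refine sum_congr rfl fun n₂ _ => ?_
  rw [← sum_filter, mul_sum]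
  refine sum_congr ?_ fun _ _ => rfl
  ext m
  have := Nat.div_le_self N (max n₁ n₂)
  simp only [mem_Icc, mem_filter]
  omega

theorem pair_le (φ : ℕ → ℂ) (L : ℝ) (N : ℕ) (gd : ℕ → Prop) [DecidablePred gd] (b : ℕ → ℝ)
    (hb : ∀ n ∈ Icc 1 N, |b n| ≤ L) (hb0 : ∀ n, ¬ gd n → b n = 0) {n₁ n₂ : ℕ}
    (h₁ : n₁ ∈ Icc 1 N) (h₂ : n₂ ∈ Icc 1 N) :
    ‖(b n₁ : ℂ) * b n₂ * ∑ m ∈ Icc 1 (N / max n₁ n₂),
        ((m : ℝ) : ℂ) * (φ (m * n₁) * (starRingEnd ℂ) (φ (m * n₂)))‖ ≤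
      L ^ 2 * ((if gd n₁ ∧ n₂ ≤ n₁ then Psi φ N n₁ n₂ else 0) +
        if gd n₂ ∧ n₁ ≤ n₂ then Psi φ N n₂ n₁ else 0) := by
  have hA : 0 ≤ (if gd n₁ ∧ n₂ ≤ n₁ then Psi φ N n₁ n₂ else 0) := by
    split_ifs
    · exact Psi_nonneg _ _ _ _
    · exact le_rfl
  have hB : 0 ≤ (if gd n₂ ∧ n₁ ≤ n₂ then Psi φ N n₂ n₁ else 0) := by
    split_ifs
    · exact Psi_nonneg _ _ _ _
    · exact le_rfl
  by_cases hu1 : gd n₁
  swap
  · rw [hb0 n₁ hu1]
    simp only [Complex.ofReal_zero, zero_mul, norm_zero]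
    positivity
  by_cases hu2 : gd n₂
  swap
  · rw [hb0 n₂ hu2]
    simp only [Complex.ofReal_zero, zero_mul, mul_zero, norm_zero]
    positivity
  have hbb : ‖(b n₁ : ℂ) * b n₂‖ ≤ L ^ 2 := by
    rw [norm_mul, Complex.norm_real, Complex.norm_real, Real.norm_eq_abs, Real.norm_eq_abs, sq]
    exact mul_le_mul (hb _ h₁) (hb _ h₂) (abs_nonneg _) ((abs_nonneg _).trans (hb _ h₁))
  rw [norm_mul]
  refine mul_le_mul hbb ?_ (norm_nonneg _) (sq_nonneg L)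
  rcases le_total n₁ n₂ with h | h
  · rw [max_eq_right h, if_pos (show gd n₂ ∧ n₁ ≤ n₂ from ⟨hu2, h⟩)]
    refine le_trans (le_of_eq ?_) (le_add_of_nonneg_left hA)
    unfold Psi
    rw [← RCLike.norm_conj, map_sum]
    congr 1
    refine sum_congr rfl fun m _ => ?_
    rw [map_mul, map_mul, Complex.conj_ofReal, Complex.conj_conj, mul_comm (φ (m * n₂))]
  · rw [max_eq_left h, if_pos (show gd n₁ ∧ n₂ ≤ n₁ from ⟨hu1, h⟩)]
    exact le_add_of_nonneg_right hB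

/-- one row of the correlation matrix -/
theorem row_le (φ : ℕ → ℂ) (hφ : ∀ n, ‖φ n‖ ≤ 1) (N n : ℕ) (δ : ℝ) (hδ : 0 < δ) (hn : 1 ≤ n)
    (Bd : Finset ℕ) (hBd : (Bd.card : ℝ) ≤ δ * n)
    (h : ∀ n' t : ℕ, 1 ≤ n' → n' ≤ n → n' ∉ Bd → n * t ≤ N →
      ‖∑ m ∈ Icc 1 t, φ (m * n) * (starRingEnd ℂ) (φ (m * n'))‖ ≤ δ * N / n) :
    ∑ n' ∈ Icc 1 n, Psi φ N n n' ≤ 3 * δ * (N : ℝ) ^ 2 * (1 / (n : ℝ)) := by
  have hnr : (0 : ℝ) < n := by exact_mod_cast hn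
  have h3 : ((N / n : ℕ) : ℝ) ≤ (N : ℝ) / n := Nat.cast_div_le
  have h1 : ∀ n' ∈ Icc 1 n, Psi φ N n n' ≤ 2 * δ * ((N : ℝ) / n) ^ 2 +
      if n' ∈ Bd then ((N : ℝ) / n) ^ 2 else 0 := by
    intro n' hn'
    rw [mem_Icc] at hn'
    unfold Psi
    split_ifs with hb
    · refine le_trans ?_ (le_add_of_nonneg_left (by positivity))
      refine (norm_sum_le _ _).trans ?_
      refine (sum_le_card_nsmul _ _ ((N : ℝ) / n) fun m hm => ?_).trans ?_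
      · rw [norm_mul, norm_mul, RCLike.norm_conj, Complex.norm_real, Real.norm_eq_abs,
          Nat.abs_cast]
        have h4 : (m : ℝ) ≤ ((N / n : ℕ) : ℝ) := by exact_mod_cast (mem_Icc.1 hm).2
        have h5 : ‖φ (m * n)‖ * ‖φ (m * n')‖ ≤ 1 :=
          mul_le_one₀ (hφ _) (norm_nonneg _) (hφ _)
        exact (mul_le_of_le_one_right (Nat.cast_nonneg _) h5).trans (h4.trans h3)
      · rw [Nat.card_Icc, nsmul_eq_mul, Nat.add_sub_cancel, sq]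
        exact mul_le_mul_of_nonneg_right h3 (by positivity)
    · rw [add_zero]
      have h4 := abelC (fun m => φ (m * n) * (starRingEnd ℂ) (φ (m * n'))) (fun m => (m : ℝ))
        Nat.mono_cast (by simp) (N / n) (δ * N / n) fun j hj => h n' j hn'.1 hn'.2 hb
          ((Nat.mul_le_mul_left n hj).trans (Nat.mul_div_le N n))
      refine h4.trans ?_
      calc 2 * ((N / n : ℕ) : ℝ) * (δ * N / n) ≤ 2 * ((N : ℝ) / n) * (δ * N / n) := by gcongr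
        _ = _ := by ring
  refine (sum_le_sum h1).trans ?_
  rw [sum_add_distrib, sum_const, ← sum_filter, sum_const, Nat.card_Icc, Nat.add_sub_cancel,
    nsmul_eq_mul, nsmul_eq_mul]
  have h2 : (((Icc 1 n).filter (fun n' => n' ∈ Bd)).card : ℝ) ≤ δ * n := by
    refine le_trans ?_ hBd
    exact_mod_cast card_le_card fun x hx => (mem_filter.1 hx).2
  have h5 := mul_le_mul_of_nonneg_right h2 (sq_nonneg ((N : ℝ) / n))
  refine (add_le_add le_rfl h5).trans (le_of_eq ?_)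
  field_simp
  ring

/-- type II sums -/
theorem typeII (φ : ℕ → ℂ) (L T : ℝ) (N : ℕ) (gd : ℕ → Prop) [DecidablePred gd] (a b : ℕ → ℝ)
    (hT : 0 ≤ T) (ha : ∀ m, |a m| ≤ 1) (hb : ∀ n ∈ Icc 1 N, |b n| ≤ L)
    (hb0 : ∀ n, ¬ gd n → b n = 0)
    (hrow : ∀ n ∈ Icc 1 N, gd n → ∑ n' ∈ Icc 1 n, Psi φ N n n' ≤ T * (1 / (n : ℝ))) :
    ‖∑ m ∈ Icc 1 N, (a m : ℂ) * ∑ n ∈ Icc 1 (N / m), (b n : ℂ) * φ (m * n)‖ ^ 2 ≤
      (1 + Real.log N) * (2 * L ^ 2 * (T * (1 + Real.log N))) := by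
  obtain ⟨S, hS⟩ : ∃ S : ℕ → ℂ, ∀ m, S m =
      ∑ n ∈ Icc 1 (N / m), (b n : ℂ) * φ (m * n) := ⟨_, fun _ => rfl⟩
  have h1 : ‖∑ m ∈ Icc 1 N, (a m : ℂ) * S m‖ ≤ ∑ m ∈ Icc 1 N, ‖S m‖ := by
    refine (norm_sum_le _ _).trans (sum_le_sum fun m _ => ?_)
    rw [norm_mul, Complex.norm_real, Real.norm_eq_abs]
    exact mul_le_of_le_one_left (norm_nonneg _) (ha m)
  have h2 : (∑ m ∈ Icc 1 N, ‖S m‖) ^ 2 ≤
      (∑ m ∈ Icc 1 N, 1 / (m : ℝ)) * ∑ m ∈ Icc 1 N, (m : ℝ) * ‖S m‖ ^ 2 := by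
    refine sum_sq_le_sum_mul_sum_of_sq_le_mul _ (fun m _ => by positivity)
      (fun m _ => by positivity) fun m hm => le_of_eq ?_
    have : (0 : ℝ) < m := by exact_mod_cast (mem_Icc.1 hm).1
    field_simp
  have htri : ∑ n₁ ∈ Icc 1 N, ∑ n₂ ∈ Icc 1 N,
      (if gd n₁ ∧ n₂ ≤ n₁ then Psi φ N n₁ n₂ else 0) ≤ T * (1 + Real.log N) := by
    refine le_trans ?_ (mul_le_mul_of_nonneg_left (harm N) hT)
    rw [mul_sum]
    refine sum_le_sum fun n hn => ?_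
    by_cases hg : gd n
    · refine le_trans (le_of_eq ?_) (hrow n hn hg)
      have hn' := mem_Icc.1 hn
      simp only [hg, true_and]
      rw [← sum_filter]
      refine sum_congr ?_ fun _ _ => rfl
      ext m
      simp only [mem_Icc, mem_filter]
      omega
    · simp only [hg, false_and, if_false, sum_const_zero]
      positivity
  have h4 : ∑ m ∈ Icc 1 N, (m : ℝ) * ‖S m‖ ^ 2 ≤ 2 * L ^ 2 * (T * (1 + Real.log N)) := by
    have h5 := congrArg norm (expand φ N b)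
    rw [Complex.norm_real, Real.norm_eq_abs] at h5
    simp only [hS]
    refine (le_abs_self _).trans (h5.le.trans ?_)
    refine (norm_sum_le _ _).trans ((sum_le_sum fun n₁ h₁ => (norm_sum_le _ _).trans
      (sum_le_sum fun n₂ h₂ => pair_le φ L N gd b hb hb0 h₁ h₂)).trans ?_)
    simp only [← mul_sum, sum_add_distrib]
    rw [sum_comm (f := fun n₁ n₂ => if gd n₂ ∧ n₁ ≤ n₂ then Psi φ N n₂ n₁ else 0)]
    have h6 := mul_le_mul_of_nonneg_left (add_le_add htri htri) (sq_nonneg L)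
    refine h6.trans (le_of_eq ?_)
    ring
  simp only [← hS]
  calc _ ≤ (∑ m ∈ Icc 1 N, ‖S m‖) ^ 2 := pow_le_pow_left₀ (norm_nonneg _) h1 2
    _ ≤ _ := h2
    _ ≤ _ := mul_le_mul (harm N) h4 (sum_nonneg fun m _ => by positivity)
        (add_nonneg zero_le_one (Real.log_natCast_nonneg N))

end Vale.Agent.P042PA.Va

namespace Vale.Agent.P042PA

open Finset ArithmeticFunction Va

theorem le_of_sq_le_sq_aux {x y : ℝ} (hx : 0 ≤ x) (hy : 0 ≤ y) (h : x ^ 2 ≤ y ^ 2) : x ≤ y :=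
  le_of_pow_le_pow_left₀ (by norm_num) hy h

/-- block A1 -/
theorem vau_holds : VauStmt := by
  intro φ N U δ hφ hU hUN hδ hδ1 hI hII
  have hL := Real.log_natCast_nonneg N
  have t1 := term1 φ N U hφ
  have t2 := term2 φ N U δ hU hδ hI
  have t3 := term3 φ N U δ hδ hI
  obtain ⟨b, hb⟩ : ∃ b : ℕ → ℝ, ∀ n, b n =
      if n * U ≤ N then (hi vonMangoldt U * ze) n else 0 := ⟨_, fun _ => rfl⟩
  have t4 := typeII φ (Real.log N) (3 * δ * (N : ℝ) ^ 2) N (fun n => U < n ∧ n * U ≤ N)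
    (fun m => hi mu U m) b (by positivity) (abs_hi_mu U)
    (fun n hn => by
      rw [hb]
      split_ifs
      · exact (abs_conv_le _ _ (abs_hi_vM U) abs_ze n).trans (log_le hn)
      · simpa using hL)
    (fun n hn => by
      rw [hb]
      split_ifs with h
      · exact hi_conv_zero _ _ U n (by
          by_contra h2
          exact hn ⟨by omega, h⟩)
      · rfl)
    (fun n hn hg => by
      obtain ⟨Bd, h1, h2⟩ := hII n hg.1 hg.2
      exact row_le φ hφ N n δ hδ (mem_Icc.1 hn).1 Bd h1 h2)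
  have e4 : ∑ n ∈ Icc 1 N, ((hi mu U * (hi vonMangoldt U * ze)) n : ℂ) * φ n =
      ∑ m ∈ Icc 1 N, (hi mu U m : ℂ) * ∑ n ∈ Icc 1 (N / m), (b n : ℂ) * φ (m * n) := by
    rw [sum_convC]
    refine sum_congr rfl fun m hm => ?_
    by_cases h : m ≤ U
    · rw [hi_apply, if_pos h]
      simp
    · congr 1
      refine sum_congr rfl fun n hn => ?_
      rw [hb, if_pos]
      have h1 := (Nat.le_div_iff_mul_le (by omega : 0 < m)).1 (mem_Icc.1 hn).2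
      exact (Nat.mul_le_mul_left n (by omega)).trans h1
  rw [← e4] at t4
  have hsplit : ∑ n ∈ Icc 1 N, (vonMangoldt n : ℂ) * φ n =
      ∑ n ∈ Icc 1 N, (lo vonMangoldt U n : ℂ) * φ n +
      ∑ n ∈ Icc 1 N, ((lo mu U * ArithmeticFunction.log) n : ℂ) * φ n +
      ∑ n ∈ Icc 1 N, ((hi mu U * (hi vonMangoldt U * ze)) n : ℂ) * φ n -
      ∑ n ∈ Icc 1 N, (((lo vonMangoldt U * lo mu U) * ze) n : ℂ) * φ n := by
    rw [← sum_add_distrib, ← sum_add_distrib, ← sum_sub_distrib]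
    refine sum_congr rfl fun n _ => ?_
    have h1 := congrArg (fun f : ArithmeticFunction ℝ => ((f n : ℝ) : ℂ)) (vaughan U)
    simp only [ArithmeticFunction.add_apply, Complex.ofReal_add] at h1
    linear_combination φ n * h1
  obtain ⟨s, hs⟩ : ∃ s, s = Real.sqrt δ := ⟨_, rfl⟩
  have hs0 : 0 ≤ s := hs ▸ Real.sqrt_nonneg _
  have hss : s ^ 2 = δ := hs ▸ Real.sq_sqrt hδ.le
  have hs1 : s ≤ 1 := hs ▸ Real.sqrt_le_one.2 hδ1
  have hδs : δ ≤ s := by nlinarith only [hss, hs0, hs1]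
  rw [← hs]
  obtain ⟨L, hLd⟩ : ∃ L, L = Real.log N := ⟨_, rfl⟩
  rw [← hLd] at t1 t2 t3 t4 hL ⊢
  have hN0 : (0 : ℝ) ≤ N := Nat.cast_nonneg _
  have hU0 : (0 : ℝ) ≤ U := Nat.cast_nonneg _
  have t5 : ‖∑ n ∈ Icc 1 N, ((hi mu U * (hi vonMangoldt U * ze)) n : ℂ) * φ n‖ ≤
      3 * ((1 + L) ^ 2 * (s * N)) := by
    refine le_of_sq_le_sq_aux (norm_nonneg _) (by positivity) (t4.trans ?_)
    have h1 : L ^ 2 ≤ (1 + L) ^ 2 := pow_le_pow_left₀ hL (by linarith) 2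
    calc (1 + L) * (2 * L ^ 2 * (3 * δ * (N : ℝ) ^ 2 * (1 + L)))
        = 6 * L ^ 2 * ((1 + L) ^ 2 * (δ * (N : ℝ) ^ 2)) := by ring
      _ ≤ 9 * (1 + L) ^ 2 * ((1 + L) ^ 2 * (δ * (N : ℝ) ^ 2)) := by
          refine mul_le_mul_of_nonneg_right ?_ (by positivity)
          nlinarith only [h1, sq_nonneg L]
      _ = _ := by rw [← hss]; ring
  have h6 : L * (δ * N) * (1 + L) ≤ (1 + L) ^ 2 * (s * N) := by
    calc L * (δ * N) * (1 + L) ≤ (1 + L) * (s * N) * (1 + L) := by gcongr; linarith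
      _ = _ := by ring
  have h7 : U * L ≤ (1 + L) ^ 2 * U := by
    have : L ≤ (1 + L) ^ 2 := by nlinarith only [hL]
    calc U * L ≤ U * (1 + L) ^ 2 := mul_le_mul_of_nonneg_left this hU0
      _ = _ := by ring
  rw [hsplit]
  refine (norm_sub_le _ _).trans ?_
  refine (add_le_add ((norm_add_le _ _).trans (add_le_add ((norm_add_le _ _).trans
    (add_le_add t1 t2)) t5)) t3).trans ?_
  have h8 : 0 ≤ (1 + L) ^ 2 * (s * N) := by positivity
  have h9 : 0 ≤ (1 + L) ^ 2 * U := by positivity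
  nlinarith only [h6, h7, h8, h9]

end Vale.Agent.P042PA
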